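import Vale.Agent.P325.Defs
import Mathlib.Combinatorics.SimpleGraph.Clique

/-!
Linear, regular and strongly satisfiable Unique Games instances, codes of graphs, and NP-hardness
of promise problems.
-/

namespace Vale.Agent.N325

open Vale.Agent.P325

/-- Every language in NP has a map to instances, whose code is computed in polynomial time, which
sends members to instances with the property `Y` and non-members to instances with the
property `N`. -/
def NPHard {α : Type} (code : α → List Bool) (Y N : α → Prop) : Prop :=
  ∀ L ∈ NP, ∃ f : List Bool → α, PolyTime (fun x => code (f x)) ∧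
    (∀ x, x ∈ L → Y (f x)) ∧ (∀ x, x ∉ L → N (f x))

/-- Every constraint is a linear equation `a v = γ * a u` over the group `Γ`, whose elements are
numbered by `e`. -/
def Linear {k : ℕ} {Γ : Type} [Group Γ] (e : Γ ≃ Fin k) (G : UG k) : Prop :=
  ∀ c ∈ G.cons, ∃ γ : Γ, ∀ g : Γ, c.2.2 (e g) = e (γ * g)

/-- The number of constraints `(v, _, _)`. -/
def outdeg {k : ℕ} (G : UG k) (v : Fin G.n) : ℕ := G.cons.countP fun c => c.1 = v

/-- The number of constraints `(_, v, _)`. -/
def indeg {k : ℕ} (G : UG k) (v : Fin G.n) : ℕ := G.cons.countP fun c => c.2.1 = v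

/-- The instance is bipartite, left vertices have degree `d` and right vertices have degree `D`. -/
def Biregular {k : ℕ} (G : UG k) (d D : ℕ) : Prop :=
  ∀ v, (outdeg G v = d ∧ indeg G v = 0) ∨ (outdeg G v = 0 ∧ indeg G v = D)

/-- Some labeling satisfies all constraints of at least a `c` fraction of the left vertices. -/
def StrongSat {k : ℕ} (G : UG k) (c : ℝ) : Prop :=
  ∃ a : Fin G.n → Fin k, c * (Finset.univ.filter fun u => outdeg G u ≠ 0).card ≤
    (Finset.univ.filter fun u => outdeg G u ≠ 0 ∧
      ∀ x ∈ G.cons, x.1 = u → a x.2.1 = x.2.2 (a x.1)).card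

open Classical in
/-- The binary code of a simple graph on `Fin n`: the number of vertices in unary, then the rows
of the adjacency matrix. -/
noncomputable def graphCode (G : Σ n : ℕ, SimpleGraph (Fin n)) : List Bool :=
  pair (List.replicate G.1 true)
    (List.ofFn fun u : Fin G.1 => List.ofFn fun v : Fin G.1 => decide (G.2.Adj u v)).flatten

end Vale.Agent.N325
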