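import Vale.Agent.Lib.PCP.HastadMath
import Mathlib.Analysis.SpecialFunctions.Pow.Real

/-!
Fourier analysis on a power of a finite set, by means of an explicit tight frame: inversion,
Parseval, the noise operator, and a fourth moment bound for functions of low degree with small
influences whose main term does not depend on the size of the set.
-/

namespace Vale.Agent.N325

open Finset Vale.Agent.Lib.PCP
open scoped BigOperators

/-! ### Tensorisation of a two function inequality -/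

section Tensor

variable {J X : Type} [Fintype J] [Fintype X]

theorem tensor_fin (ψ : J → X → ℝ) (κ : J → J → ℝ) (hκ : ∀ j l, 0 ≤ κ j l)
    (h : ∀ a b : J → ℝ, 𝔼 x, (∑ j, a j * ψ j x) ^ 2 * (∑ l, b l * ψ l x) ^ 2 ≤
      ∑ j, ∑ l, κ j l * (a j ^ 2 * b l ^ 2)) (n : ℕ) :
    ∀ a b : (Fin n → J) → ℝ,
      𝔼 x : Fin n → X, (∑ α, a α * ∏ i, ψ (α i) (x i)) ^ 2 * (∑ β, b β * ∏ i, ψ (β i) (x i)) ^ 2 ≤
      ∑ α, ∑ β, (∏ i, κ (α i) (β i)) * (a α ^ 2 * b β ^ 2) := by
  induction n with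
  | zero => intro a b; simp
  | succ n ih =>
    intro a b
    have hs : ∀ φ : (Fin (n + 1) → J) → ℝ, ∑ α, φ α = ∑ j, ∑ α' : Fin n → J, φ (Fin.cons j α') := by
      intro φ
      rw [← Fintype.sum_prod_type']
      exact (Fintype.sum_equiv (Fin.consEquiv fun _ => J) _ _ fun _ => rfl).symm
    have he : ∀ φ : (Fin (n + 1) → X) → ℝ,
        𝔼 x, φ x = 𝔼 x' : Fin n → X, 𝔼 y : X, φ (Fin.cons y x') := by
      intro φ
      rw [expect_comm, ← expect_product', univ_product_univ]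
      exact (Fintype.expect_equiv (Fin.consEquiv fun _ => X) _ _ fun _ => rfl).symm
    rw [he]
    have hp : ∀ (c : (Fin (n + 1) → J) → ℝ) (y : X) (x' : Fin n → X),
        ∑ α, c α * ∏ i, ψ (α i) ((Fin.cons y x' : Fin (n + 1) → X) i) =
        ∑ j, (∑ α' : Fin n → J, c (Fin.cons j α') * ∏ i, ψ (α' i) (x' i)) * ψ j y := by
      intro c y x'
      rw [hs]
      refine sum_congr rfl fun j _ => ?_
      rw [sum_mul]
      refine sum_congr rfl fun α' _ => ?_
      rw [Fin.prod_univ_succ]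
      simp only [Fin.cons_zero, Fin.cons_succ]
      ring
    simp only [hp]
    refine (expect_le_expect fun x' _ => h _ _).trans ?_
    simp only [expect_sum_comm, ← mul_expect]
    rw [hs]
    refine sum_le_sum fun j _ => ?_
    simp only [hs]
    rw [sum_comm]
    refine sum_le_sum fun l _ => ?_
    refine (mul_le_mul_of_nonneg_left (ih _ _) (hκ j l)).trans (le_of_eq ?_)
    rw [mul_sum]
    refine sum_congr rfl fun α' _ => ?_
    rw [mul_sum]
    refine sum_congr rfl fun β' _ => ?_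
    rw [Fin.prod_univ_succ]
    simp only [Fin.cons_zero, Fin.cons_succ]
    ring

theorem tensor {R : Type} [Fintype R] [DecidableEq R] (ψ : J → X → ℝ) (κ : J → J → ℝ)
    (hκ : ∀ j l, 0 ≤ κ j l)
    (h : ∀ a b : J → ℝ, 𝔼 x, (∑ j, a j * ψ j x) ^ 2 * (∑ l, b l * ψ l x) ^ 2 ≤
      ∑ j, ∑ l, κ j l * (a j ^ 2 * b l ^ 2)) (a b : (R → J) → ℝ) :
    𝔼 x : R → X, (∑ α, a α * ∏ i, ψ (α i) (x i)) ^ 2 * (∑ β, b β * ∏ i, ψ (β i) (x i)) ^ 2 ≤
      ∑ α, ∑ β, (∏ i, κ (α i) (β i)) * (a α ^ 2 * b β ^ 2) := by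
  let e := Fintype.equivFin R
  have h1 := tensor_fin ψ κ hκ h _ (fun α => a (α ∘ e)) (fun β => b (β ∘ e))
  have hs : ∀ φ : (R → J) → ℝ, ∑ α, φ α = ∑ α : Fin (Fintype.card R) → J, φ (α ∘ e) := fun φ =>
    (Fintype.sum_equiv (e.symm.arrowCongr (Equiv.refl J)) _ _ fun _ => rfl).symm
  have he : ∀ φ : (R → X) → ℝ, 𝔼 x, φ x = 𝔼 x : Fin (Fintype.card R) → X, φ (x ∘ e) := fun φ =>
    (Fintype.expect_equiv (e.symm.arrowCongr (Equiv.refl X)) _ _ fun _ => rfl).symm
  have hp : ∀ (α : Fin (Fintype.card R) → J) (x : Fin (Fintype.card R) → X),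
      ∏ i, ψ (α (e i)) (x (e i)) = ∏ i, ψ (α i) (x i) := fun α x =>
    e.prod_comp fun i => ψ (α i) (x i)
  have hq : ∀ (α β : Fin (Fintype.card R) → J),
      ∏ i, κ (α (e i)) (β (e i)) = ∏ i, κ (α i) (β i) := fun α β =>
    e.prod_comp fun i => κ (α i) (β i)
  rw [he]
  simp only [hs, Function.comp_apply, hp, hq]
  exact h1

end Tensor

/-! ### The frame in one dimension -/

section One

variable {Γ : Type} [Fintype Γ] [DecidableEq Γ]

/-- A tight frame of the functions on `Γ`: the constant one and the centred point masses. -/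
noncomputable def ph : Option Γ → Γ → ℝ
  | none, _ => 1
  | some g, x => √(Fintype.card Γ) * ((if x = g then 1 else 0) - 1 / Fintype.card Γ)

omit [DecidableEq Γ] in
theorem card_pos' [Nonempty Γ] : (0 : ℝ) < Fintype.card Γ := by exact_mod_cast Fintype.card_pos

theorem sum_ph_some [Nonempty Γ] (a : Γ → ℝ) (x : Γ) : ∑ g, a g * ph (some g) x =
    √(Fintype.card Γ) * (a x - 𝔼 g, a g) := by
  simp only [ph, mul_sub, sum_sub_distrib, mul_ite, mul_one, mul_zero, sum_ite_eq, mem_univ,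
    if_true, Fintype.expect_eq_sum_div_card, sum_div, mul_sum]
  congr 1
  · ring
  · exact sum_congr rfl fun g _ => by ring

theorem expect_ph_some [Nonempty Γ] (g : Γ) : 𝔼 x, ph (some g) x = 0 := by
  have := card_pos' (Γ := Γ)
  simp only [ph, ← mul_expect, expect_sub_distrib, Fintype.expect_const]
  rw [Fintype.expect_eq_sum_div_card]
  simp

theorem ker_ph [Nonempty Γ] (x y : Γ) :
    ∑ j, ph j x * ph j y = if x = y then (Fintype.card Γ : ℝ) else 0 := by
  have h0 := card_pos' (Γ := Γ)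
  have h1 : 𝔼 g, ph (some g) x = 0 := by
    simp only [ph, ← mul_expect, expect_sub_distrib, Fintype.expect_const]
    rw [Fintype.expect_eq_sum_div_card]
    simp
  rw [Fintype.sum_option, sum_ph_some (fun g => ph (some g) x), h1]
  simp only [ph, sub_zero, ← mul_assoc, Real.mul_self_sqrt h0.le]
  split_ifs <;> field_simp <;> ring

/-- The damped frame. -/
noncomputable def ps (j : Option Γ) (x : Γ) : ℝ := (if j = none then 1 else 1 / 2) * ph j x

/-- The kernel of the two function inequality. -/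
noncomputable def kap (j l : Option Γ) : ℝ := if j ≠ none ∧ l ≠ none then Fintype.card Γ else 1

omit [DecidableEq Γ] in
theorem kap_nonneg (j l : Option Γ) : 0 ≤ kap j l := by
  unfold kap
  split_ifs <;> positivity

theorem pt_ineq (a b u v : ℝ) : (a + u / 2) ^ 2 * (b + v / 2) ^ 2 ≤
    a ^ 2 * b ^ 2 + a ^ 2 * b * v + a * b ^ 2 * u + a ^ 2 * v ^ 2 + b ^ 2 * u ^ 2 +
      u ^ 2 * v ^ 2 := by
  nlinarith [sq_nonneg (a * v - b * u), sq_nonneg (a * v - u * v), sq_nonneg (b * u - u * v),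
    sq_nonneg (a * v), sq_nonneg (b * u), sq_nonneg (u * v)]

theorem centred [Nonempty Γ] (a : Γ → ℝ) :
    𝔼 x, (∑ g, a g * ph (some g) x) = 0 ∧ 𝔼 x, (∑ g, a g * ph (some g) x) ^ 2 ≤ ∑ g, a g ^ 2 := by
  have h0 := card_pos' (Γ := Γ)
  constructor
  · simp only [expect_sum_comm, ← mul_expect, expect_ph_some, mul_zero, sum_const_zero]
  · simp only [sum_ph_some, mul_pow, Real.sq_sqrt h0.le, ← mul_expect]
    have h1 : 𝔼 x, (a x - 𝔼 g, a g) ^ 2 = (𝔼 x, a x ^ 2) - (𝔼 g, a g) ^ 2 := by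
      simp only [sub_sq, expect_add_distrib, expect_sub_distrib, Fintype.expect_const,
        ← expect_mul, ← mul_expect]
      ring
    rw [h1, mul_sub, Fintype.card_mul_expect]
    nlinarith [sq_nonneg (𝔼 g, a g)]

theorem one_dim [Nonempty Γ] (a b : Option Γ → ℝ) :
    𝔼 x, (∑ j, a j * ps j x) ^ 2 * (∑ l, b l * ps l x) ^ 2 ≤
      ∑ j, ∑ l, kap j l * (a j ^ 2 * b l ^ 2) := by
  have h0 := card_pos' (Γ := Γ)
  obtain ⟨u, hu⟩ : ∃ u : Γ → ℝ, ∀ x, u x = ∑ g, a (some g) * ph (some g) x := ⟨_, fun _ => rfl⟩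
  obtain ⟨v, hv⟩ : ∃ v : Γ → ℝ, ∀ x, v x = ∑ g, b (some g) * ph (some g) x := ⟨_, fun _ => rfl⟩
  obtain ⟨u1, u2⟩ := centred fun g => a (some g)
  obtain ⟨v1, v2⟩ := centred fun g => b (some g)
  simp only [← hu, ← hv] at u1 u2 v1 v2
  have hd : ∀ (c : Option Γ → ℝ) (x : Γ),
      ∑ j, c j * ps j x = c none + (∑ g, c (some g) * ph (some g) x) / 2 := by
    intro c x
    rw [Fintype.sum_option, sum_div]
    congr 1
    · simp [ps, ph]
    · exact sum_congr rfl fun g _ => by simp only [ps, reduceCtorEq, if_false]; ring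
  have hb : ∀ x, u x ^ 2 ≤ Fintype.card Γ * ∑ g, a (some g) ^ 2 := fun x => by
    refine le_trans ?_ (mul_le_mul_of_nonneg_left u2 h0.le)
    rw [Fintype.card_mul_expect]
    exact single_le_sum (f := fun x => u x ^ 2) (fun _ _ => sq_nonneg _) (mem_univ x)
  simp only [hd, ← hu, ← hv]
  refine (expect_le_expect fun x _ => (pt_ineq _ _ _ _).trans (add_le_add le_rfl
    (mul_le_mul_of_nonneg_right (hb x) (sq_nonneg (v x))))).trans ?_
  simp only [expect_add_distrib, ← mul_expect, Fintype.expect_const, u1, v1, Fintype.sum_option,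
    kap, ne_eq, not_true, false_and, and_false, if_false, reduceCtorEq, not_false_eq_true,
    and_self, if_true, one_mul, sum_add_distrib, ← mul_sum, ← sum_mul]
  have hU : 0 ≤ ∑ g, a (some g) ^ 2 := sum_nonneg fun _ _ => sq_nonneg _
  have e1 := mul_le_mul_of_nonneg_left v2 (sq_nonneg (a none))
  have e2 := mul_le_mul_of_nonneg_left u2 (sq_nonneg (b none))
  have e3 := mul_le_mul_of_nonneg_left v2 (mul_nonneg h0.le hU)
  nlinarith

end One

/-! ### The frame on the product -/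

section Prod

variable {Γ R : Type} [Fintype Γ] [DecidableEq Γ] [Fintype R] [DecidableEq R]

/-- The product frame. -/
noncomputable def Ph (α : R → Option Γ) (x : R → Γ) : ℝ := ∏ i, ph (α i) (x i)

/-- The coefficients. -/
noncomputable def coef (f : (R → Γ) → ℝ) (α : R → Option Γ) : ℝ := 𝔼 x, f x * Ph α x

/-- The degree of an index. -/
def deg (α : R → Option Γ) : ℕ := (univ.filter fun i => α i ≠ none).card

omit [Fintype Γ] [DecidableEq Γ] [DecidableEq R] in
theorem prod_ite_deg (α : R → Option Γ) (c : ℝ) :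
    ∏ i, (if α i = none then 1 else c) = c ^ deg α := by
  rw [prod_ite, prod_const_one, one_mul, prod_const, deg]

omit [Fintype Γ] [DecidableEq Γ] [DecidableEq R] in
theorem sum_ite_deg (α : R → Option Γ) (c : ℝ) :
    ∑ i, (if α i ≠ none then c else 0) = deg α * c := by
  rw [← sum_filter, sum_const, nsmul_eq_mul, deg]

variable [Nonempty Γ]

theorem ker_Ph (x y : R → Γ) :
    ∑ α, Ph α x * Ph α y = if x = y then (Fintype.card (R → Γ) : ℝ) else 0 := by
  simp only [Ph, ← prod_mul_distrib]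
  rw [← Fintype.piFinset_univ, ← prod_univ_sum (fun _ => univ)
    (fun i j => ph j (x i) * ph j (y i))]
  simp only [ker_ph]
  split_ifs with h
  · simp [h]
  · obtain ⟨i, hi⟩ := Function.ne_iff.1 h
    exact prod_eq_zero (mem_univ i) (if_neg hi)

theorem inversion (f : (R → Γ) → ℝ) (x : R → Γ) : ∑ α, coef f α * Ph α x = f x := by
  have h0 := card_pos' (Γ := R → Γ)
  simp only [coef, expect_mul]
  rw [← expect_sum_comm]
  simp only [mul_assoc, ← mul_sum, ker_Ph]
  rw [Fintype.expect_eq_sum_div_card]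
  simp only [mul_ite, mul_zero, sum_ite_eq', mem_univ, if_true]
  field_simp

omit [Nonempty Γ] in
theorem expect_mul_synth (f : (R → Γ) → ℝ) (c : (R → Option Γ) → ℝ) :
    𝔼 x, f x * ∑ α, c α * Ph α x = ∑ α, c α * coef f α := by
  simp only [mul_sum, expect_sum_comm, coef, mul_expect]
  exact sum_congr rfl fun α _ => expect_congr rfl fun x _ => by ring

theorem parseval (f : (R → Γ) → ℝ) : ∑ α, coef f α ^ 2 = 𝔼 x, f x ^ 2 := by
  have h := expect_mul_synth f (coef f)
  simp only [inversion, ← sq] at h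
  exact h.symm

/-- Noise in one coordinate: with probability `1 / N` a fresh value. -/
def nz {N : ℕ} (x : Γ) (r : Fin N × Γ) : Γ := if (r.1 : ℕ) = 0 then r.2 else x

theorem expect_ph_nz {N : ℕ} (hN : 0 < N) (j : Option Γ) (x : Γ) :
    𝔼 r : Fin N × Γ, ph j (nz x r) = (if j = none then 1 else 1 - 1 / (N : ℝ)) * ph j x := by
  have : Nonempty (Fin N) := ⟨⟨0, hN⟩⟩
  rcases j with _ | g
  · simp [ph]
  · rw [← univ_product_univ, expect_product]
    have h1 : ∀ t : Fin N, 𝔼 z : Γ, ph (some g) (nz x (t, z)) =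
        if (t : ℕ) = 0 then 0 else ph (some g) x := by
      intro t
      simp only [nz]
      split_ifs
      · exact expect_ph_some g
      · exact Fintype.expect_const _
    simp only [h1, expect_fin_zero hN, reduceCtorEq, if_false]
    ring

theorem expect_Ph_nz {N : ℕ} (hN : 0 < N) (α : R → Option Γ) (x : R → Γ) :
    𝔼 r : R → Fin N × Γ, Ph α (fun i => nz (x i) (r i)) = (1 - 1 / (N : ℝ)) ^ deg α * Ph α x := by
  simp only [Ph]
  rw [expect_pi_prod fun i r => ph (α i) (nz (x i) r)]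
  simp only [expect_ph_nz hN, prod_mul_distrib, prod_ite_deg]

theorem noise_inner {N : ℕ} (hN : 0 < N) (f h : (R → Γ) → ℝ) :
    𝔼 x, 𝔼 r : R → Fin N × Γ, f x * h (fun i => nz (x i) (r i)) =
      ∑ α, ((1 - 1 / (N : ℝ)) ^ deg α * coef h α) * coef f α := by
  rw [← expect_mul_synth]
  refine expect_congr rfl fun x _ => ?_
  rw [← mul_expect]
  congr 1
  simp only [← inversion h (fun i => nz (x i) _), expect_sum_comm, ← mul_expect, expect_Ph_nz hN]
  exact sum_congr rfl fun α _ => by ring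

omit [DecidableEq Γ] [DecidableEq R] in
theorem prod_kap_le (d : ℕ) (α β : R → Option Γ) (hα : deg α ≤ d) :
    ∏ i, kap (α i) (β i) ≤ 1 + (Fintype.card Γ : ℝ) ^ d *
      ∑ i, (if α i ≠ none then (if β i ≠ none then (1 : ℝ) else 0) else 0) := by
  have h1 : (1 : ℝ) ≤ Fintype.card Γ := by exact_mod_cast Fintype.card_pos
  have h0 : ∀ i, (0 : ℝ) ≤ if α i ≠ none then (if β i ≠ none then (1 : ℝ) else 0) else 0 :=
    fun i => by split_ifs <;> norm_num
  by_cases h : ∃ i, α i ≠ none ∧ β i ≠ none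
  · obtain ⟨i, hi, hi'⟩ := h
    have h2 : (1 : ℝ) ≤ ∑ i, (if α i ≠ none then (if β i ≠ none then (1 : ℝ) else 0) else 0) := by
      refine le_trans ?_ (single_le_sum (fun i _ => h0 i) (mem_univ i))
      simp [hi, hi']
    have h3 : ∏ i, kap (α i) (β i) ≤ (Fintype.card Γ : ℝ) ^ d := by
      refine le_trans ?_ (pow_le_pow_right₀ h1 hα)
      rw [← prod_ite_deg]
      refine prod_le_prod (fun i _ => kap_nonneg _ _) fun i _ => ?_
      unfold kap
      split_ifs <;> simp_all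
    nlinarith [pow_pos (lt_of_lt_of_le one_pos h1) d]
  · have h2 : ∏ i, kap (α i) (β i) = 1 := prod_eq_one fun i _ => if_neg fun hi => h ⟨i, hi⟩
    rw [h2]
    have := mul_nonneg (pow_nonneg (le_trans zero_le_one h1) d) (sum_nonneg fun i (_ : i ∈ univ) => h0 i)
    linarith

/-- The fourth moment of a function of degree at most `d` with influences at most `τ`. -/
theorem fourth (d : ℕ) (c : (R → Option Γ) → ℝ) (hc : ∀ α, ¬ deg α ≤ d → c α = 0) {τ : ℝ}
    (hτ0 : 0 ≤ τ) (hτ : ∀ i, ∑ α, (if α i ≠ none then c α ^ 2 else 0) ≤ τ) :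
    𝔼 x, (∑ α, c α * Ph α x) ^ 4 ≤
      16 ^ d * ((∑ α, c α ^ 2) ^ 2 + Fintype.card Γ ^ d * d * τ * ∑ α, c α ^ 2) := by
  have h0 := card_pos' (Γ := Γ)
  have h1 := tensor ps kap kap_nonneg one_dim (fun α : R → Option Γ => 2 ^ deg α * c α)
    (fun α => 2 ^ deg α * c α)
  have h2 : ∀ (α : R → Option Γ) (x : R → Γ),
      2 ^ deg α * c α * ∏ i, ps (α i) (x i) = c α * Ph α x := by
    intro α x
    simp only [ps, prod_mul_distrib, prod_ite_deg, Ph, one_div, inv_pow]
    field_simp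
  simp only [h2, ← pow_add] at h1
  refine h1.trans ?_
  have h3 : ∀ α : R → Option Γ, (2 ^ deg α * c α) ^ 2 ≤ 4 ^ d * c α ^ 2 := by
    intro α
    by_cases h : deg α ≤ d
    · rw [mul_pow, ← pow_mul, mul_comm (deg α), pow_mul]
      exact mul_le_mul_of_nonneg_right (by
        rw [show (2 : ℝ) ^ 2 = 4 by norm_num]
        exact pow_le_pow_right₀ (by norm_num) h) (sq_nonneg _)
    · simp [hc α h]
  have h4 : ∀ α : R → Option Γ, ∑ β, (∏ i, kap (α i) (β i)) *
      ((2 ^ deg α * c α) ^ 2 * (2 ^ deg β * c β) ^ 2) ≤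
      16 ^ d * (c α ^ 2 * (∑ β, c β ^ 2) + Fintype.card Γ ^ d * d * τ * c α ^ 2) := by
    intro α
    by_cases h : deg α ≤ d
    · have h5 : ∑ β, (∏ i, kap (α i) (β i)) * c β ^ 2 ≤
          (∑ β, c β ^ 2) + Fintype.card Γ ^ d * d * τ := by
        refine (sum_le_sum fun β _ =>
          mul_le_mul_of_nonneg_right (prod_kap_le d α β h) (sq_nonneg _)).trans ?_
        simp only [add_mul, one_mul, sum_add_distrib, mul_assoc, ← mul_sum]
        refine add_le_add le_rfl (mul_le_mul_of_nonneg_left ?_ (by positivity))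
        simp only [sum_mul]
        rw [sum_comm]
        refine le_trans (sum_le_sum fun i _ => (?_ : _ ≤ if α i ≠ none then τ else 0)) ?_
        · split_ifs with hi
          · refine le_trans (le_of_eq (sum_congr rfl fun β _ => ?_)) (hτ i)
            split_ifs <;> simp
          · simp
        · rw [sum_ite_deg]
          exact mul_le_mul_of_nonneg_right (by exact_mod_cast h) hτ0
      calc _ ≤ ∑ β, (∏ i, kap (α i) (β i)) * ((4 ^ d * c α ^ 2) * (4 ^ d * c β ^ 2)) :=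
            sum_le_sum fun β _ => mul_le_mul_of_nonneg_left
              (mul_le_mul (h3 α) (h3 β) (sq_nonneg _) (by positivity))
              (prod_nonneg fun i _ => kap_nonneg _ _)
        _ = 16 ^ d * (c α ^ 2 * ∑ β, (∏ i, kap (α i) (β i)) * c β ^ 2) := by
            rw [mul_sum, mul_sum, show (16 : ℝ) = 4 * 4 by norm_num, mul_pow]
            exact sum_congr rfl fun β _ => by ring
        _ ≤ _ := by
            refine mul_le_mul_of_nonneg_left ?_ (by positivity)
            nlinarith [mul_le_mul_of_nonneg_left h5 (sq_nonneg (c α))]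
    · simp [hc α h]
  refine (sum_le_sum fun α _ => h4 α).trans (le_of_eq ?_)
  simp only [← mul_sum, sum_add_distrib, ← sum_mul, sq (∑ α, c α ^ 2)]

/-! ### Influences and noise stability -/

/-- The influence of degree at most `d`. -/
noncomputable def infl (d : ℕ) (f : (R → Γ) → ℝ) (i : R) : ℝ :=
  ∑ α, if deg α ≤ d ∧ α i ≠ none then coef f α ^ 2 else 0

omit [Nonempty Γ] in
theorem infl_nonneg (d : ℕ) (f : (R → Γ) → ℝ) (i : R) : 0 ≤ infl d f i :=
  sum_nonneg fun _ _ => by split_ifs <;> positivity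

theorem sum_infl_le (d : ℕ) (f : (R → Γ) → ℝ) : ∑ i, infl d f i ≤ d * 𝔼 x, f x ^ 2 := by
  simp only [infl]
  rw [sum_comm, ← parseval, mul_sum]
  refine sum_le_sum fun α _ => ?_
  by_cases h : deg α ≤ d
  · simp only [h, true_and, sum_ite_deg]
    exact mul_le_mul_of_nonneg_right (by exact_mod_cast h) (sq_nonneg _)
  · simp only [h, false_and, if_false, sum_const_zero]
    positivity

omit [Nonempty Γ] in
theorem coef_perm (f : (R → Γ) → ℝ) (π : R ≃ R) (α : R → Option Γ) :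
    coef (fun y => f (y ∘ π.symm)) α = coef f (α ∘ π.symm) := by
  refine Fintype.expect_equiv (π.arrowCongr (Equiv.refl Γ)) _ _ fun y => ?_
  congr 1
  exact (π.symm.prod_comp fun i => ph (α i) (y i)).symm

omit [Nonempty Γ] in
theorem infl_perm (d : ℕ) (f : (R → Γ) → ℝ) (π : R ≃ R) (i : R) :
    infl d (fun y => f (y ∘ π.symm)) i = infl d f (π i) := by
  refine Fintype.sum_equiv (π.arrowCongr (Equiv.refl _)) _ _ fun α => ?_
  have h1 : deg (α ∘ π.symm) = deg α := by
    refine card_equiv π.symm fun j => ?_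
    simp
  have h2 : (π.arrowCongr (Equiv.refl _)) α = α ∘ π.symm := rfl
  rw [coef_perm, h2, h1]
  simp

theorem mul_le_theta {F p θ : ℝ} (h0 : 0 ≤ F) (h1 : F ≤ 1) (hθ : 0 < θ) :
    F * p ≤ θ * F + p ^ 4 / θ ^ 3 := by
  have h2 : 0 ≤ p ^ 4 / θ ^ 3 := by positivity
  by_cases h : p ≤ θ
  · nlinarith
  · push Not at h
    have h3 : p ≤ p ^ 4 / θ ^ 3 := by
      rw [le_div_iff₀ (by positivity), show p ^ 4 = p * p ^ 3 by ring]
      exact mul_le_mul_of_nonneg_left (pow_le_pow_left₀ hθ.le h.le 3) (hθ.trans h).le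
    nlinarith

theorem stab_one {N : ℕ} (hN : 0 < N) (d : ℕ) (F H : (R → Γ) → ℝ) (h0 : ∀ x, 0 ≤ F x)
    (h1 : ∀ x, F x ≤ 1) {θ τ : ℝ} (hθ : 0 < θ) (hτ0 : 0 ≤ τ) (hτ : ∀ i, infl d H i ≤ τ) :
    𝔼 x, 𝔼 r : R → Fin N × Γ, F x * H (fun i => nz (x i) (r i)) ≤ θ * (𝔼 x, F x) +
      16 ^ d * ((𝔼 x, H x ^ 2) ^ 2 + Fintype.card Γ ^ d * d * τ * 𝔼 x, H x ^ 2) / θ ^ 3 +
      (1 - 1 / (N : ℝ)) ^ d * (((𝔼 x, F x ^ 2) + 𝔼 x, H x ^ 2) / 2) := by
  have hq := card_pos' (Γ := Γ)
  obtain ⟨ρ, hρ⟩ : ∃ ρ : ℝ, ρ = 1 - 1 / (N : ℝ) := ⟨_, rfl⟩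
  have hN1 : (1 : ℝ) ≤ N := by exact_mod_cast hN
  have hρ0 : 0 ≤ ρ := by
    rw [hρ, sub_nonneg, div_le_one (by linarith)]
    exact hN1
  have hρ1 : ρ ≤ 1 := by
    rw [hρ]
    have : (0 : ℝ) ≤ 1 / N := by positivity
    linarith
  rw [noise_inner hN, ← hρ]
  obtain ⟨c, hc⟩ : ∃ c : (R → Option Γ) → ℝ,
      ∀ α, c α = if deg α ≤ d then ρ ^ deg α * coef H α else 0 := ⟨_, fun _ => rfl⟩
  have hc2 : ∀ α, c α ^ 2 ≤ if deg α ≤ d then coef H α ^ 2 else 0 := by
    intro α
    rw [hc]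
    split_ifs
    · rw [mul_pow]
      exact mul_le_of_le_one_left (sq_nonneg _) (pow_le_one₀ (by positivity) (pow_le_one₀ hρ0 hρ1))
    · simp
  have hW : ∑ α, c α ^ 2 ≤ 𝔼 x, H x ^ 2 := by
    rw [← parseval]
    refine sum_le_sum fun α _ => (hc2 α).trans ?_
    split_ifs
    · exact le_rfl
    · positivity
  have hW0 : 0 ≤ ∑ α, c α ^ 2 := sum_nonneg fun _ _ => sq_nonneg _
  have h4 := fourth d c (fun α h => by rw [hc, if_neg h]) hτ0 fun i => by
    refine le_trans (sum_le_sum fun α _ => ?_) (hτ i)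
    have := hc2 α
    by_cases ha : α i ≠ none
    · simpa [ha] using this
    · simp [ha]
  have h5 : ∑ α, c α * coef F α ≤ θ * (𝔼 x, F x) +
      16 ^ d * ((𝔼 x, H x ^ 2) ^ 2 + Fintype.card Γ ^ d * d * τ * 𝔼 x, H x ^ 2) / θ ^ 3 := by
    rw [← expect_mul_synth]
    refine (expect_le_expect fun x _ => mul_le_theta (h0 x) (h1 x) hθ).trans ?_
    rw [expect_add_distrib, ← mul_expect, ← expect_div]
    refine add_le_add le_rfl (div_le_div_of_nonneg_right (h4.trans ?_) (by positivity))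
    gcongr
  have h6 : ∑ α, (ρ ^ deg α * coef H α - c α) * coef F α ≤
      ρ ^ d * (((𝔼 x, F x ^ 2) + 𝔼 x, H x ^ 2) / 2) := by
    rw [← parseval, ← parseval, ← sum_add_distrib, sum_div, mul_sum]
    refine sum_le_sum fun α _ => ?_
    rw [hc]
    split_ifs with h
    · rw [sub_self, zero_mul]
      positivity
    · have e1 : ρ ^ deg α ≤ ρ ^ d := pow_le_pow_of_le_one hρ0 hρ1 (not_le.1 h).le
      have e2 : coef H α * coef F α ≤ (coef F α ^ 2 + coef H α ^ 2) / 2 := by
        nlinarith [sq_nonneg (coef H α - coef F α)]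
      rw [sub_zero, mul_assoc]
      exact (mul_le_mul_of_nonneg_left e2 (pow_nonneg hρ0 _)).trans
        (mul_le_mul_of_nonneg_right e1 (by positivity))
  simp only [sub_mul, sum_sub_distrib] at h6
  linarith

/-- The bound for the noise stability. -/
noncomputable def kbd (N d q : ℕ) (θ τ : ℝ) : ℝ :=
  θ + 16 ^ d * (1 / q + q ^ d * d * τ) / θ ^ 3 + (1 - 1 / (N : ℝ)) ^ d

/-- Functions into the simplex. -/
def Simp (F : Γ → (R → Γ) → ℝ) : Prop := (∀ g x, 0 ≤ F g x) ∧ ∀ x, ∑ g, F g x ≤ 1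

omit [DecidableEq Γ] [Fintype R] [DecidableEq R] [Nonempty Γ] in
theorem Simp.le_one {F : Γ → (R → Γ) → ℝ} (h : Simp F) (g : Γ) (x : R → Γ) : F g x ≤ 1 :=
  (single_le_sum (f := fun g => F g x) (fun g _ => h.1 g x) (mem_univ g)).trans (h.2 x)

omit [DecidableEq Γ] [Nonempty Γ] in
theorem Simp.sq_le {F : Γ → (R → Γ) → ℝ} (h : Simp F) (g : Γ) :
    𝔼 x, F g x ^ 2 ≤ 𝔼 x, F g x :=
  expect_le_expect fun x _ => by nlinarith [h.1 g x, h.le_one g x]

omit [DecidableEq Γ] in
theorem Simp.sum_le {F : Γ → (R → Γ) → ℝ} (h : Simp F) : ∑ g, 𝔼 x, F g x ≤ 1 := by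
  rw [← expect_sum_comm]
  exact expect_le univ_nonempty fun x _ => h.2 x

omit [DecidableEq Γ] in
theorem Simp.sum_sq_le {F : Γ → (R → Γ) → ℝ} (h : Simp F) : ∑ g, 𝔼 x, F g x ^ 2 ≤ 1 :=
  (sum_le_sum fun g _ => h.sq_le g).trans h.sum_le

theorem stab {N : ℕ} (hN : 0 < N) (d : ℕ) {F H : Γ → (R → Γ) → ℝ} (hF : Simp F) (hH : Simp H)
    (hb : ∀ g, 𝔼 x, H g x ≤ 1 / Fintype.card Γ) {θ τ : ℝ} (hθ : 0 < θ) (hτ0 : 0 ≤ τ)
    (hτ : ∀ g i, infl d (H g) i ≤ τ) :
    ∑ g, 𝔼 x, 𝔼 r : R → Fin N × Γ, F g x * H g (fun i => nz (x i) (r i)) ≤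
      kbd N d (Fintype.card Γ) θ τ := by
  have hq := card_pos' (Γ := Γ)
  have hρ0 : 0 ≤ 1 - 1 / (N : ℝ) := by
    rw [sub_nonneg, div_le_one (by exact_mod_cast hN)]
    exact_mod_cast hN
  refine (sum_le_sum fun g _ => stab_one hN d (F g) (H g) (hF.1 g) (hF.le_one g) hθ hτ0
    (hτ g)).trans ?_
  simp only [sum_add_distrib, ← mul_sum, ← sum_div, kbd]
  have h1 : ∑ g, (𝔼 x, H g x ^ 2) ^ 2 ≤ 1 / Fintype.card Γ := by
    refine le_trans (sum_le_sum fun g _ => (?_ : _ ≤ 1 / Fintype.card Γ * 𝔼 x, H g x ^ 2)) ?_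
    · rw [sq]
      exact mul_le_mul_of_nonneg_right ((hH.sq_le g).trans (hb g))
        (expect_nonneg fun _ _ => sq_nonneg _)
    · rw [← mul_sum]
      exact mul_le_of_le_one_right (by positivity) hH.sum_sq_le
  refine add_le_add (add_le_add (mul_le_of_le_one_right hθ.le hF.sum_le) ?_)
    (mul_le_of_le_one_right (pow_nonneg hρ0 _) (by linarith [hF.sum_sq_le, hH.sum_sq_le]))
  refine div_le_div_of_nonneg_right (mul_le_mul_of_nonneg_left (add_le_add h1
    (mul_le_of_le_one_right (by positivity) hH.sum_sq_le)) (by positivity)) (by positivity)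

/-- The bound at one vertex: either the average of the neighbours has small influences, or a
coordinate is influential for the neighbours on average. -/
theorem stab_family [Nonempty R] {N : ℕ} (hN : 0 < N) (d : ℕ) {E : Type} (B : Finset E)
    {F : Γ → (R → Γ) → ℝ} {G : E → Γ → (R → Γ) → ℝ} (hF : Simp F) (hG : ∀ e, Simp (G e))
    (hb : ∀ e g, 𝔼 x, G e g x ≤ 1 / Fintype.card Γ) {θ τ : ℝ} (hθ : 0 < θ) (hτ0 : 0 < τ) :
    ∃ i, ∑ e ∈ B, ∑ g, 𝔼 x, 𝔼 r : R → Fin N × Γ, F g x * G e g (fun i => nz (x i) (r i)) ≤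
      B.card * kbd N d (Fintype.card Γ) θ τ + (∑ e ∈ B, ∑ g, infl d (G e g) i) / τ := by
  have hq := card_pos' (Γ := Γ)
  have : Nonempty (Fin N) := ⟨⟨0, hN⟩⟩
  rcases B.eq_empty_or_nonempty with rfl | hB
  · exact ⟨Classical.arbitrary R, by simp⟩
  have hρ0 : 0 ≤ 1 - 1 / (N : ℝ) := by
    rw [sub_nonneg, div_le_one (by exact_mod_cast hN)]
    exact_mod_cast hN
  have hk : 0 ≤ kbd N d (Fintype.card Γ) θ τ := by unfold kbd; positivity
  obtain ⟨H, hH⟩ : ∃ H : Γ → (R → Γ) → ℝ, ∀ g x, H g x = 𝔼 e ∈ B, G e g x := ⟨_, fun _ _ => rfl⟩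
  have hS : Simp H := ⟨fun g x => hH g x ▸ expect_nonneg fun e _ => (hG e).1 g x, fun x => by
    simp only [hH, ← expect_sum_comm]
    exact expect_le hB fun e _ => (hG e).2 x⟩
  have h1 : ∑ e ∈ B, ∑ g, 𝔼 x, 𝔼 r : R → Fin N × Γ, F g x * G e g (fun i => nz (x i) (r i)) =
      B.card * ∑ g, 𝔼 x, 𝔼 r : R → Fin N × Γ, F g x * H g (fun i => nz (x i) (r i)) := by
    rw [← card_mul_expect, expect_sum_comm]
    congr 1
    refine sum_congr rfl fun g _ => ?_
    rw [expect_comm]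
    refine expect_congr rfl fun x _ => ?_
    rw [expect_comm]
    simp only [hH, mul_expect]
  have h2 : ∀ g i, B.card * infl d (H g) i ≤ ∑ e ∈ B, infl d (G e g) i := by
    intro g i
    simp only [infl]
    rw [sum_comm, mul_sum]
    refine sum_le_sum fun α _ => ?_
    split_ifs
    · have e1 : coef (H g) α = 𝔼 e ∈ B, coef (G e g) α := by
        simp only [coef, hH, expect_mul]
        exact expect_comm _ _ _
      have e2 := expect_mul_sq_le_sq_mul_sq B (fun e => coef (G e g) α) (fun _ => (1 : ℝ))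
      simp only [mul_one, one_pow, expect_const hB] at e2
      rw [e1, ← card_mul_expect]
      exact mul_le_mul_of_nonneg_left e2 (Nat.cast_nonneg _)
    · simp
  rw [h1]
  by_cases h : ∀ g i, infl d (H g) i ≤ τ
  · refine ⟨Classical.arbitrary R, le_add_of_le_of_nonneg (mul_le_mul_of_nonneg_left
      (stab hN d hF hS (fun g => ?_) hθ hτ0.le h) (Nat.cast_nonneg _)) (div_nonneg
      (sum_nonneg fun e _ => sum_nonneg fun g _ => infl_nonneg _ _ _) hτ0.le)⟩
    simp only [hH]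
    rw [expect_comm]
    exact expect_le hB fun e _ => hb e g
  · push Not at h
    obtain ⟨g, i, hi⟩ := h
    refine ⟨i, le_add_of_nonneg_of_le (mul_nonneg (Nat.cast_nonneg _) hk) ?_⟩
    have h3 : ∑ g, 𝔼 x, 𝔼 r : R → Fin N × Γ, F g x * H g (fun i => nz (x i) (r i)) ≤ 1 := by
      refine le_trans (sum_le_sum fun g _ => expect_le_expect fun x _ =>
        expect_le univ_nonempty fun r _ => mul_le_of_le_one_right (hF.1 g x) (hS.le_one g _)) ?_
      exact hF.sum_le
    rw [le_div_iff₀ hτ0, sum_comm]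
    refine le_trans ?_ (single_le_sum (f := fun g => ∑ e ∈ B, infl d (G e g) i)
      (fun g _ => sum_nonneg fun e _ => infl_nonneg _ _ _) (mem_univ g))
    refine le_trans ?_ (h2 g i)
    have h4 : (0 : ℝ) ≤ B.card := Nat.cast_nonneg _
    exact mul_le_mul (mul_le_of_le_one_right h4 h3) hi.le hτ0.le h4

end Prod

end Vale.Agent.N325
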