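import Vale.Agent.N325.Reg

/-!
From numbered instances to the instances of the statement.
-/

namespace Vale.Agent.N325

open Finset Vale.Agent.Lib.PCP Vale.Agent.Lib.PolyTime Vale.Agent.P325
open scoped BigOperators

theorem NPHard.mono {α : Type} {code : α → List Bool} {Y N Y' N' : α → Prop}
    (h : NPHard code Y N) (h1 : ∀ a, Y a → Y' a) (h2 : ∀ a, N a → N' a) : NPHard code Y' N' :=
  fun L hL => let ⟨f, hf, f1, f2⟩ := h L hL
    ⟨f, hf, fun x hx => h1 _ (f1 x hx), fun x hx => h2 _ (f2 x hx)⟩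

/-- Hardness in the library gives hardness in the sense of the statement. -/
theorem npHard_of_hard {β γ α : Type} [Enc β] [Enc γ] {Q : Promise β} (h : Hard Q)
    {code : α → List Bool} {Y N : α → Prop} (P : β → Prop) (conv : ∀ b, P b → α) (data : β → γ)
    (hd : PT ∅ data) (hc : ∀ b hb, code (conv b hb) = enc (data b))
    (hy : ∀ b, Q.yes b → P b) (hn : ∀ b, Q.no b → P b)
    (h1 : ∀ b hb, Q.yes b → Y (conv b hb)) (h2 : ∀ b hb, Q.no b → N (conv b hb)) :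
    NPHard code Y N := by
  intro L hL
  obtain ⟨f, hf, f1, f2⟩ := (cookLevin L hL).trans h
  have h0 : ∀ x : List Bool, P (f ⟨x⟩) := fun x => by
    by_cases hx : x ∈ L
    · exact hy _ (f1 ⟨x⟩ hx)
    · exact hn _ (f2 ⟨x⟩ hx)
  refine ⟨fun x => conv (f ⟨x⟩) (h0 x), ?_, fun x hx => h1 _ _ (f1 ⟨x⟩ hx),
    fun x hx => h2 _ _ (f2 ⟨x⟩ hx)⟩
  obtain ⟨g, hg, hg'⟩ := hd.comp hf
  refine polyTime_iff.2 (hg.congr fun x => ?_)
  rw [hc]
  exact hg' ⟨x⟩

section Conv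

variable {Γ : Type} [Group Γ] {k : ℕ}

/-- Nonempty instances whose vertices are in range. -/
def InR (I : Inst Γ) : Prop := I.2.2 ≠ [] ∧ ∀ e ∈ I.2.2, e.1 < I.1.v ∧ e.2.1 < I.2.1.v

/-- The instance of the statement. -/
def conv (e : Γ ≃ Fin k) (I : Inst Γ) (h : InR I) : UG k where
  n := I.1.v + I.2.1.v
  cons := I.2.2.attach.map fun c => (⟨c.1.1, Nat.lt_add_right _ (h.2 _ c.2).1⟩,
    ⟨I.1.v + c.1.2.1, Nat.add_lt_add_left (h.2 _ c.2).2 _⟩,
    (e.symm.trans (Equiv.mulLeft c.1.2.2)).trans e)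
  cons_ne := by simpa using h.1

theorem conv_length (e : Γ ≃ Fin k) (I : Inst Γ) (h : InR I) :
    (conv e I h).cons.length = I.2.2.length := by simp [conv]

theorem conv_countP (e : Γ ≃ Fin k) (I : Inst Γ) (h : InR I)
    (p : Fin (conv e I h).n × Fin (conv e I h).n × Equiv.Perm (Fin k) → Bool)
    (q : ℕ × ℕ × Γ → Bool) (hpq : ∀ c (hc : c ∈ I.2.2), p (⟨c.1, Nat.lt_add_right _ (h.2 _ hc).1⟩,
      ⟨I.1.v + c.2.1, Nat.add_lt_add_left (h.2 _ hc).2 _⟩,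
      (e.symm.trans (Equiv.mulLeft c.2.2)).trans e) = true ↔ q c = true) :
    (conv e I h).cons.countP p = I.2.2.countP q := by
  conv_rhs => rw [← List.attach_map_subtype_val I.2.2, List.countP_map]
  exact List.countP_map.trans (List.countP_congr fun c _ => hpq c.1 c.2)

theorem mem_conv {e : Γ ≃ Fin k} {I : Inst Γ} {h : InR I}
    {x : Fin (conv e I h).n × Fin (conv e I h).n × Equiv.Perm (Fin k)} :
    x ∈ (conv e I h).cons → ∃ c, ∃ hc : c ∈ I.2.2, x = (⟨c.1, Nat.lt_add_right _ (h.2 _ hc).1⟩,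
      ⟨I.1.v + c.2.1, Nat.add_lt_add_left (h.2 _ hc).2 _⟩,
      (e.symm.trans (Equiv.mulLeft c.2.2)).trans e) := fun hx => by
  obtain ⟨c, -, rfl⟩ := List.mem_map.1 hx
  exact ⟨c.1, c.2, rfl⟩

theorem conv_linear (e : Γ ≃ Fin k) (I : Inst Γ) (h : InR I) : Linear e (conv e I h) := by
  intro x hx
  obtain ⟨c, hc, rfl⟩ := mem_conv hx
  exact ⟨c.2.2, fun g => by simp⟩

theorem outdeg_conv (e : Γ ≃ Fin k) (I : Inst Γ) (h : InR I) (v : Fin (conv e I h).n) :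
    outdeg (conv e I h) v = I.2.2.countP fun c => c.1 = (v : ℕ) :=
  conv_countP e I h _ _ fun c _ => by simp [Fin.ext_iff]

theorem indeg_conv (e : Γ ≃ Fin k) (I : Inst Γ) (h : InR I) (v : Fin (conv e I h).n) :
    indeg (conv e I h) v = I.2.2.countP fun c => I.1.v + c.2.1 = v :=
  conv_countP e I h _ _ fun c _ => by simp [Fin.ext_iff]

theorem outdeg_conv_zero (e : Γ ≃ Fin k) (I : Inst Γ) (h : InR I) {v : Fin (conv e I h).n}
    (hv : ¬ v < I.1.v) : outdeg (conv e I h) v = 0 := by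
  rw [outdeg_conv, List.countP_eq_zero]
  intro c hc
  have := (h.2 c hc).1
  simp only [decide_eq_true_eq]
  omega

theorem conv_biregular (e : Γ ≃ Fin k) {I : Inst Γ} (h : InR I) {d D : ℕ} (hw : WF I d D) :
    Biregular (conv e I h) d D := by
  intro v
  by_cases hv : v < I.1.v
  · refine Or.inl ⟨(outdeg_conv e I h v).trans (hw.left v hv), ?_⟩
    rw [indeg_conv, List.countP_eq_zero]
    intro c _
    simp only [decide_eq_true_eq]
    omega
  · refine Or.inr ⟨outdeg_conv_zero e I h hv, ?_⟩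
    have h1 : (v : ℕ) < I.1.v + I.2.1.v := v.2
    rw [indeg_conv, ← hw.right (v - I.1.v) (by omega)]
    refine List.countP_congr fun c _ => ?_
    simp only [decide_eq_true_eq]
    omega

variable [DecidableEq Γ]

/-- The labeling of the vertices given by two labelings. -/
def glue (e : Γ ≃ Fin k) (n : ℕ) (F : (ℕ → Γ) × (ℕ → Γ)) (i : ℕ) : Fin k :=
  e (if i < n then F.1 i else F.2 (i - n))

theorem glue_sat (e : Γ ≃ Fin k) {n : ℕ} (F : (ℕ → Γ) × (ℕ → Γ)) {c : ℕ × ℕ × Γ} (hc : c.1 < n) :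
    glue e n F (n + c.2.1) = ((e.symm.trans (Equiv.mulLeft c.2.2)).trans e) (glue e n F c.1) ↔
      satG c F = true := by
  simp [glue, hc, satG_iff]

theorem le_val_conv (e : Γ ≃ Fin k) (I : Inst Γ) (h : InR I) {c : ℝ} {F : (ℕ → Γ) × (ℕ → Γ)}
    (hF : c * I.2.2.length ≤ (cnt satG I.2.2 F : ℝ)) : c ≤ (conv e I h).val := by
  have hl : (0 : ℝ) < I.2.2.length := by exact_mod_cast List.length_pos_iff.2 h.1
  refine le_trans ?_ (le_ciSup (toUG_bdd _) fun i => glue e I.1.v F i)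
  rw [conv_length, le_div_iff₀ hl, conv_countP e I h _ (fun c => satG c F) fun c hc =>
    decide_eq_true_iff.trans (glue_sat e F (h.2 c hc).1)]
  exact hF

theorem val_conv_le (e : Γ ≃ Fin k) (I : Inst Γ) (h : InR I) {s : ℝ}
    (hF : ∀ F, (cnt satG I.2.2 F : ℝ) ≤ s * I.2.2.length) : (conv e I h).val ≤ s := by
  have hl : (0 : ℝ) < I.2.2.length := by exact_mod_cast List.length_pos_iff.2 h.1
  have : Nonempty (Fin (conv e I h).n → Fin k) := ⟨fun _ => e 1⟩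
  refine ciSup_le fun a => ?_
  rw [conv_length, div_le_iff₀ hl, conv_countP e I h _ (fun c => satG c
    (fun u => if hu : u < (conv e I h).n then e.symm (a ⟨u, hu⟩) else 1,
      fun v => if hv : I.1.v + v < (conv e I h).n then e.symm (a ⟨_, hv⟩) else 1)) fun c hc => ?_]
  · exact hF _
  · have h1 : c.1 < (conv e I h).n := Nat.lt_add_right _ (h.2 _ hc).1
    have h2 : I.1.v + c.2.1 < (conv e I h).n := Nat.add_lt_add_left (h.2 _ hc).2 _
    rw [satG_iff]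
    refine decide_eq_true_iff.trans ?_
    simp only [dif_pos h1, dif_pos h2, Equiv.trans_apply, Equiv.coe_mulLeft,
      Equiv.symm_apply_eq]

theorem card_filter_lt {n m : ℕ} (hn : n ≤ m) (p : Fin m → Prop) [DecidablePred p] (q : ℕ → Prop)
    [DecidablePred q] (h : ∀ i : Fin m, p i ↔ (i : ℕ) < n ∧ q i) :
    (univ.filter p).card = ((range n).filter q).card := by
  refine card_bij (fun i _ => (i : ℕ)) (fun i hi => ?_) (fun i _ j _ e => Fin.ext e) fun j hj => ?_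
  · simpa using (h i).1 (mem_filter.1 hi).2
  · obtain ⟨h1, h2⟩ := mem_filter.1 hj
    have h3 := mem_range.1 h1
    exact ⟨⟨j, by omega⟩, mem_filter.2 ⟨mem_univ _, (h _).2 ⟨h3, h2⟩⟩, rfl⟩

theorem strongSat_conv (e : Γ ≃ Fin k) {I : Inst Γ} (h : InR I) {d D : ℕ} (hw : WF I d D) {c : ℝ}
    {F : (ℕ → Γ) × (ℕ → Γ)} (hF : c * I.1.v ≤
      ((range I.1.v).filter fun u => ∀ x ∈ I.2.2, x.1 = u → satG x F = true).card) :
    StrongSat (conv e I h) c := by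
  have h0 : ∀ v : Fin (conv e I h).n, outdeg (conv e I h) v ≠ 0 ↔ (v : ℕ) < I.1.v := fun v =>
    ⟨fun hv => by_contra fun hc => hv (outdeg_conv_zero e I h hc), fun hv => by
      rw [outdeg_conv, hw.left v hv]
      exact hw.pos.ne'⟩
  refine ⟨fun i => glue e I.1.v F i, ?_⟩
  have hn : I.1.v ≤ (conv e I h).n := Nat.le_add_right _ _
  rw [card_filter_lt hn _ (fun _ => True) fun i => by simpa using h0 i,
    card_filter_lt hn _
      (fun u => ∀ x ∈ I.2.2, x.1 = u → satG x F = true) fun i => and_congr (h0 i) ⟨?_, ?_⟩]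
  · simpa using hF
  · intro hi x hx e1
    exact (glue_sat e F (h.2 x hx).1).1 (hi _ (List.mem_map.2 ⟨⟨x, hx⟩, List.mem_attach _ _, rfl⟩)
      (Fin.ext e1))
  · intro hi x hx e1
    obtain ⟨c, hc, rfl⟩ := mem_conv hx
    exact (glue_sat e F (h.2 c hc).1).2 (hi c hc (congrArg Fin.val e1))

/-- The data which is written down. -/
def cdata (e : Γ ≃ Fin k) (I : Inst Γ) : Un × List (List Raw) :=
  (⟨I.1.v + I.2.1.v⟩, I.2.2.map fun c => [⟨c.1.bits⟩, ⟨(I.1.v + c.2.1).bits⟩,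
    ⟨enc (List.ofFn fun i : Fin k => (e (c.2.2 * e.symm i)).val)⟩])

omit [DecidableEq Γ] in
theorem code_conv (e : Γ ≃ Fin k) (I : Inst Γ) (h : InR I) :
    (conv e I h).code = enc (cdata e I) := by
  rw [cdata, enc_pair, enc_un, ← codeList_eq, UG.code, pair_eq_pr]
  congr 2
  simp only [conv, List.map_map]
  conv_rhs => rw [← List.attach_map_subtype_val I.2.2]
  rw [List.map_map]
  refine List.map_congr_left fun c _ => ?_
  simp only [Function.comp_apply]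
  rw [← codeList_eq]
  simp only [List.map_cons, List.map_nil, enc_raw]
  rw [← codeList_eq, List.map_ofFn]
  rfl

omit [DecidableEq Γ] in
theorem PT_cdata [Finite Γ] [Enc Γ] [EncInj Γ] (e : Γ ≃ Fin k) : PT ∅ (cdata e) := by
  refine PT.pair (PT.mkUn (PT.fst'.unVal.add PT.snd'.fst.unVal)
    ((PBd.unVal (A := ∅) PT.fst').add (PBd.unVal (A := ∅) PT.snd'.fst))) (PT.map PT.snd'.snd ?_)
  refine PT.cons (PT.rawBits PT.snd'.fst)
    (PT.cons (PT.rawBits (PT.fst'.fst.unVal.add PT.snd'.snd.fst)) (PT.cons ?_ PT.nil))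
  exact PT.finComp (fun γ : Γ =>
    Raw.mk (enc (List.ofFn fun i : Fin k => (e (γ * e.symm i)).val))) PT.snd'.snd.snd

end Conv

section Final

variable {Γ : Type} [Group Γ] {k : ℕ}

theorem hard_regP [Fintype Γ] [DecidableEq Γ] [Enc Γ] [EncInj Γ] {ε δ : ℝ} (hε : 0 < ε)
    (hε1 : ε ≤ 1) (hδ : 0 < δ) (hδ1 : δ ≤ 1) (hq : (32 / δ) ^ (16 / ε) ≤ (Fintype.card Γ : ℝ)) :
    Hard (RegP Γ (1 - ε) δ) := by
  obtain ⟨W, _, _, _, h⟩ := hard_group (Γ := Γ) (δ := δ / 4) hε hε1 (by positivity) (by linarith)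
    (by rwa [show 8 / (δ / 4) = 32 / δ by field_simp; norm_num])
  have h1 := h.red (red_reg _ _)
  rwa [show 4 * (δ / 4) = δ by ring] at h1

/-- Linear regular unique games over a group of order at least `(32 / δ) ^ (16 / ε)`. -/
theorem linear_regular (e : Γ ≃ Fin k) {ε δ : ℝ} (hε : 0 < ε) (hε1 : ε ≤ 1) (hδ : 0 < δ)
    (hδ1 : δ ≤ 1) (hk : (32 / δ) ^ (16 / ε) ≤ (k : ℝ)) :
    NPHard UG.code (fun G : UG k => Linear e G ∧ (∃ D, Biregular G D D) ∧ 1 - ε ≤ G.val)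
      (fun G => Linear e G ∧ (∃ D, Biregular G D D) ∧ G.val ≤ δ) := by
  classical
  let _ : Fintype Γ := Fintype.ofEquiv _ e.symm
  let _ : Enc Γ := ⟨fun g => enc (e g)⟩
  have : EncInj Γ := ⟨fun _ _ h => e.injective (EncInj.inj h)⟩
  have hc : Fintype.card Γ = k := by simpa using Fintype.card_congr e
  exact npHard_of_hard (hard_regP hε hε1 hδ hδ1 (hc ▸ hk)) InR (conv e) (cdata e) (PT_cdata e)
    (code_conv e) (fun I ⟨⟨_, h⟩, _⟩ => ⟨h.ne, h.lt⟩) (fun I ⟨⟨_, h⟩, _⟩ => ⟨h.ne, h.lt⟩)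
    (fun I h ⟨⟨D, hw⟩, _, hF⟩ =>
      ⟨conv_linear e I h, ⟨D, conv_biregular e h hw⟩, le_val_conv e I h hF⟩)
    fun I h ⟨⟨D, hw⟩, hF⟩ =>
      ⟨conv_linear e I h, ⟨D, conv_biregular e h hw⟩, val_conv_le e I h hF⟩

theorem gap_all {ε δ : ℝ} (hε : 0 < ε) (hε1 : ε ≤ 1) (hδ : 0 < δ) (hδ1 : δ ≤ 1) {k : ℕ}
    (hk : (32 / δ) ^ (16 / ε) ≤ (k : ℝ)) : GapNPHard k (1 - ε) δ := by
  have h0 : (0 : ℝ) < k := lt_of_lt_of_le (by positivity) hk
  have : NeZero k := ⟨by rintro rfl; simp at h0⟩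
  exact (linear_regular (Γ := Multiplicative (Fin k)) Multiplicative.toAdd hε hε1 hδ hδ1 hk).mono
    (fun _ h => h.2.2) fun _ h => h.2.2

theorem hard_strP {ε δ : ℝ} (hε : 0 < ε) (hδ : 0 < δ) : ∃ d k₀ : ℕ, 0 < d ∧
    ∀ (Γ : Type) [Group Γ] [Fintype Γ] [DecidableEq Γ] [Enc Γ] [EncInj Γ], k₀ ≤ Fintype.card Γ →
      Hard (StrP Γ d (1 - ε) δ) := by
  obtain ⟨d, hd⟩ := exists_nat_gt (2 / δ ^ 2)
  have hd0 : (0 : ℝ) < d := lt_trans (by positivity) hd
  obtain ⟨k₀, hk⟩ := exists_nat_ge ((32 / min 1 (δ ^ 2 / 2)) ^ (16 / min 1 (ε / d)))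
  refine ⟨d, k₀, by exact_mod_cast hd0, fun Γ _ _ _ _ _ hq => ?_⟩
  have h1 := (hard_regP (Γ := Γ) (ε := min 1 (ε / d)) (δ := min 1 (δ ^ 2 / 2)) (by positivity)
    (min_le_left _ _) (by positivity) (min_le_left _ _) (hk.trans (by exact_mod_cast hq))).red
    (red_strong (d := d) (by exact_mod_cast hd0) hδ _ _)
  refine Red.mono h1 (fun I ⟨h2, F, hF⟩ => ⟨h2, F, le_trans ?_ hF⟩) fun I ⟨h2, hF⟩ =>
    ⟨h2, fun F => (hF F).trans ?_⟩
  · refine mul_le_mul_of_nonneg_right ?_ (Nat.cast_nonneg _)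
    have h3 := min_le_right 1 (ε / d)
    rw [le_div_iff₀ hd0] at h3
    linarith
  · refine mul_le_mul_of_nonneg_right ?_ (Nat.cast_nonneg _)
    have h3 := min_le_right 1 (δ ^ 2 / 2)
    have h4 : 1 / (d : ℝ) ≤ δ ^ 2 / 2 := by
      rw [div_lt_iff₀ (by positivity)] at hd
      rw [div_le_iff₀ hd0]
      linarith
    have h5 : (1 / d + min 1 (δ ^ 2 / 2)) / (2 * δ) ≤ δ / 2 := by
      rw [div_le_iff₀ (by positivity)]
      linarith
    linarith

/-- The strong form. -/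
theorem linear_strong {ε δ : ℝ} (hε : 0 < ε) (hδ : 0 < δ) : ∃ d k₀ : ℕ, ∀ k, k₀ ≤ k →
    ∀ (Γ : Type) [Group Γ] (e : Γ ≃ Fin k),
      NPHard UG.code (fun G : UG k => Linear e G ∧ (∃ D, Biregular G d D) ∧ StrongSat G (1 - ε))
        (fun G => Linear e G ∧ (∃ D, Biregular G d D) ∧ G.val ≤ δ) := by
  classical
  obtain ⟨d, k₀, -, h⟩ := hard_strP hε hδ
  refine ⟨d, k₀, fun k hk Γ _ e => ?_⟩
  let _ : Fintype Γ := Fintype.ofEquiv _ e.symm
  let _ : Enc Γ := ⟨fun g => enc (e g)⟩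
  have : EncInj Γ := ⟨fun _ _ h => e.injective (EncInj.inj h)⟩
  have hc : Fintype.card Γ = k := by simpa using Fintype.card_congr e
  exact npHard_of_hard (h Γ (hc ▸ hk)) InR (conv e) (cdata e) (PT_cdata e)
    (code_conv e) (fun I ⟨⟨_, h⟩, _⟩ => ⟨h.ne, h.lt⟩) (fun I ⟨⟨_, h⟩, _⟩ => ⟨h.ne, h.lt⟩)
    (fun I h ⟨⟨D, hw⟩, _, hF⟩ =>
      ⟨conv_linear e I h, ⟨D, conv_biregular e h hw⟩, strongSat_conv e h hw hF⟩)
    fun I h ⟨⟨D, hw⟩, hF⟩ =>
      ⟨conv_linear e I h, ⟨D, conv_biregular e h hw⟩, val_conv_le e I h hF⟩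

end Final

end Vale.Agent.N325
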