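import Vale.Agent.N325.Four
import Vale.Agent.P325.Assemble
import Vale.Agent.P325.Gadget

/-!
Reductions: unique games with translations of a vector space over the field with two elements,
their bipartite form, and the long code reduction to linear equations over an arbitrary group.
-/

namespace Vale.Agent.N325

open Finset Vale.Agent.Lib.PCP Vale.Agent.Lib.PolyTime Vale.Agent.P325
open scoped BigOperators

/-! ### Averaging -/

section Avg

variable {E V B : Type} [Fintype E] [DecidableEq V]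

theorem group_le (key : E → V) (f : E → ℝ) (g : E → B → ℝ)
    (h : ∀ v, ∃ b, ∑ e ∈ univ.filter (fun e => key e = v), f e ≤
      ∑ e ∈ univ.filter (fun e => key e = v), g e b) :
    ∃ F : V → B, ∑ e, f e ≤ ∑ e, g e (F (key e)) := by
  choose F hF using h
  refine ⟨F, ?_⟩
  rw [← sum_fiberwise_of_maps_to (s := univ) (t := univ.image key) (g := key)
      (fun e _ => mem_image_of_mem _ (mem_univ e)),
    ← sum_fiberwise_of_maps_to (s := univ) (t := univ.image key) (g := key)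
      (fun e _ => mem_image_of_mem _ (mem_univ e))]
  refine sum_le_sum fun v _ => (hF v).trans (le_of_eq (sum_congr rfl fun e he => ?_))
  rw [(mem_filter.1 he).2]

/-- Rounding of fractional labelings. -/
theorem frac_le [Fintype B] [Nonempty B] (key : E → V) (w : E → B → ℝ) (hw : ∀ e b, 0 ≤ w e b)
    {S : ℝ} (h : ∀ F : V → B, ∑ e, w e (F (key e)) ≤ S) (q : V → B → ℝ) {D : ℝ}
    (hD : 0 ≤ D) (h0 : ∀ v b, 0 ≤ q v b) (h1 : ∀ v, ∑ b, q v b ≤ D) :
    ∑ e, ∑ b, q (key e) b * w e b ≤ D * S := by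
  obtain ⟨F, hF⟩ := group_le key (fun e => ∑ b, q (key e) b * w e b) (fun e b => D * w e b)
    fun v => by
      obtain ⟨b₀, -, hb⟩ := exists_max_image univ
        (fun b => ∑ e ∈ univ.filter (fun e => key e = v), w e b) univ_nonempty
      refine ⟨b₀, ?_⟩
      have h2 : ∑ e ∈ univ.filter (fun e => key e = v), ∑ b, q (key e) b * w e b =
          ∑ b, q v b * ∑ e ∈ univ.filter (fun e => key e = v), w e b := by
        rw [sum_comm]
        refine sum_congr rfl fun b _ => ?_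
        rw [mul_sum]
        exact sum_congr rfl fun e he => by rw [(mem_filter.1 he).2]
      rw [h2, ← mul_sum]
      refine (sum_le_sum fun b _ => mul_le_mul_of_nonneg_left (hb b (mem_univ b)) (h0 v b)).trans ?_
      rw [← sum_mul]
      exact mul_le_mul_of_nonneg_right (h1 v) (sum_nonneg fun e _ => hw e b₀)
  refine hF.trans ?_
  rw [← mul_sum]
  exact mul_le_mul_of_nonneg_left (h F) hD

theorem expect_two {J T : Type} [Fintype J] [DecidableEq J] [Fintype T] [Nonempty T] {a b : J}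
    (h : a ≠ b) (u v : T → ℝ) : 𝔼 x : J → T, u (x a) * v (x b) = (𝔼 t, u t) * 𝔼 t, v t := by
  rw [← expect_update (fun x => u (x a) * v (x b)) a]
  simp only [Function.update_self, Function.update_of_ne (Ne.symm h), ← expect_mul, ← mul_expect]
  rw [expect_coord v b]

end Avg

theorem cnt_eq_fin {C A : Type} (sat : C → A → Bool) (l : List C) (a : A) :
    (cnt sat l a : ℝ) = ∑ i : Fin l.length, if sat l[i] a = true then (1 : ℝ) else 0 := by
  rw [cnt_eq_sum, sum_map_eq_sum_fin]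

/-- Every member of the list is replaced by a block indexed by a fixed finite type. -/
noncomputable def blow {α β : Type} (T : Type) [Fintype T] (φ : α → T → β) (l : List α) : List β :=
  l.flatMap fun e => (univ : Finset T).toList.map (φ e)

section Blow

variable {α β T A : Type} [Fintype T]

theorem length_blow (φ : α → T → β) (l : List α) :
    (blow T φ l).length = Fintype.card T * l.length :=
  length_flatMap_const _ _ _ fun _ _ => by rw [List.length_map, length_univ_toList]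

theorem blow_ne_nil [Nonempty T] (φ : α → T → β) {l : List α} (h : l ≠ []) : blow T φ l ≠ [] := by
  rw [← List.length_pos_iff, length_blow]
  exact Nat.mul_pos Fintype.card_pos (List.length_pos_iff.2 h)

theorem cnt_blow (sat : β → A → Bool) (φ : α → T → β) (l : List α) (a : A) :
    (cnt sat (blow T φ l) a : ℝ) = Fintype.card T * ∑ i : Fin l.length,
      𝔼 t, if sat (φ l[i] t) a = true then (1 : ℝ) else 0 := by
  rw [cnt_eq_sum, blow, sum_map_flatMap, sum_map_eq_sum_fin, mul_sum]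
  refine sum_congr rfl fun i _ => ?_
  rw [List.map_map, sum_map_univ, Fintype.card_mul_expect]
  rfl

theorem PT_blow [Enc α] [Enc β] {φ : α → T → β} (h : ∀ t, PT ∅ fun e => φ e t) :
    PT ∅ (blow T φ) :=
  PT.flatMap (f := fun _ e => (univ : Finset T).toList.map (φ e)) PT.id
    (PT.comp (PT.mapConst _ (f := fun t e => φ e t) fun t _ => h t) PT.snd')

/-- A reduction by blocks. -/
theorem red_blow {A' : Type} [Enc α] [Enc β] [Nonempty T] {sat : α → A → Bool}
    {sat' : β → A' → Bool} {φ : α → T → β} (h : ∀ t, PT ∅ fun e => φ e t) {c s c' s' : ℝ}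
    (h1 : ∀ (l : List α) (a : A), c * l.length ≤ ∑ i : Fin l.length,
      (if sat l[i] a = true then (1 : ℝ) else 0) → ∃ a', c' * l.length ≤ ∑ i : Fin l.length,
        𝔼 t, if sat' (φ l[i] t) a' = true then (1 : ℝ) else 0)
    (h2 : ∀ l : List α, (∀ a, ∑ i : Fin l.length,
      (if sat l[i] a = true then (1 : ℝ) else 0) ≤ s * l.length) → ∀ a', ∑ i : Fin l.length,
        (𝔼 t, if sat' (φ l[i] t) a' = true then (1 : ℝ) else 0) ≤ s' * l.length) :
    Red (Gap sat c s) (Gap sat' c' s') := by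
  have h0 : (0 : ℝ) ≤ Fintype.card T := Nat.cast_nonneg _
  refine ⟨blow T φ, PT_blow h, fun l hl => ⟨blow_ne_nil φ hl.1, ?_⟩,
    fun l hl => ⟨blow_ne_nil φ hl.1, fun a' => ?_⟩⟩
  · obtain ⟨a, ha⟩ := hl.2
    obtain ⟨a', ha'⟩ := h1 l a (by rwa [← cnt_eq_fin])
    refine ⟨a', ?_⟩
    rw [cnt_blow, length_blow]
    push_cast
    nlinarith [mul_le_mul_of_nonneg_left ha' h0]
  · rw [cnt_blow, length_blow]
    push_cast
    nlinarith [mul_le_mul_of_nonneg_left (h2 l (fun a => by rw [← cnt_eq_fin]; exact hl.2 a) a') h0]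

end Blow

/-! ### Translations -/

/-- The equation `F v = F u + w`. -/
def satL {V A : Type} [Add A] [DecidableEq A] (c : V × V × A) (F : V → A) : Bool :=
  decide (F c.2.1 = F c.1 + c.2.2)

theorem red_lin {s m n : ℕ} (G : Gadget s m n) (k t : ℕ) {c γ c' δ : ℝ}
    (h1 : ∀ (N : ℕ) (_ : Nonempty (Fin N)) (eq : Fin N → Eq3 ℕ) (σ : ℕ → Bool),
      c ≤ (𝔼 e, if satLin (eq e) σ = true then (1 : ℝ) else 0) →
      ∃ F : Name k t (Vec m) → Vec s,
        c' ≤ 𝔼 u : Fin k → Fin t → Fin N, acc G F (fun j c => eq (u j c)))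
    (h2 : ∀ (N : ℕ) (_ : Nonempty (Fin N)) (eq : Fin N → Eq3 ℕ), Tagged eq γ →
      ∀ F : Name k t (Vec m) → Vec s,
        𝔼 u : Fin k → Fin t → Fin N, acc G F (fun j c => eq (u j c)) ≤ δ) :
    Red (TagP c γ) (Gap (satL (V := Name k t (Vec m)) (A := Vec s)) c' δ) := by
  have hc : ∀ (l : List (Eq3 ℕ)) (F : Name k t (Vec m) → Vec s),
      cnt satL ((uGame G k t l).map fun e => (e.1, e.2.1, e.2.2 0)) F =
        cnt satU (uGame G k t l) F := fun l F => cnt_map _ _ _ _ fun e he => by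
    simp only [uGame, uBlock, List.mem_flatMap, List.mem_map] at he
    obtain ⟨T, -, r, -, rfl⟩ := he
    simp only [satL, satU, uEdge, zero_add]
    congr
  refine ⟨fun l => (uGame G k t l).map fun e => (e.1, e.2.1, e.2.2 0),
    PT.map (f := fun _ (e : UEdge (Name k t (Vec m)) (Vec s)) => (e.1, e.2.1, e.2.2 0))
      (PT_uGame G) (PT.snd'.fst.pair (PT.snd'.snd.fst.pair (PT.funAt PT.snd'.snd.snd 0))),
    fun l hl => ⟨by simpa using uGame_ne_nil G hl.1, ?_⟩,
    fun l hl => ⟨by simpa using uGame_ne_nil G hl.1, fun F => ?_⟩⟩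
  · obtain ⟨σ, hσ⟩ := hl.2
    have hl0 : 0 < l.length := List.length_pos_iff.2 hl.1
    obtain ⟨F, hF⟩ := h1 l.length ⟨⟨0, hl0⟩⟩ (fun i => l[i]) σ (by
      rw [Fintype.expect_eq_sum_div_card, Fintype.card_fin,
        le_div_iff₀ (by exact_mod_cast hl0), ← sum_map_eq_sum_fin l
          (fun e => if satLin e σ = true then (1 : ℝ) else 0), ← cnt_eq_sum]
      exact hσ)
    refine ⟨F, ?_⟩
    rw [hc, cnt_uGame, List.length_map]
    exact mul_le_mul_of_nonneg_right hF (Nat.cast_nonneg _)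
  · rw [hc, cnt_uGame, List.length_map]
    exact mul_le_mul_of_nonneg_right
      (h2 l.length ⟨⟨0, List.length_pos_iff.2 hl.1⟩⟩ (fun i => l[i]) hl.2 F) (Nat.cast_nonneg _)

/-- Unique games whose constraints are translations of `Vec s` are hard. -/
theorem hard_lin {ε δ : ℝ} (hε : 0 < ε) (hδ : 0 < δ) (s₁ : ℕ) :
    ∃ s m k t : ℕ, s₁ ≤ s ∧ Hard (Gap (satL (V := Name k t (Vec m)) (A := Vec s)) (1 - ε) δ) := by
  obtain ⟨r, hr⟩ := gadget (ε := ε / 2) (δ := δ / 5) (by positivity) (by positivity)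
  obtain ⟨β, hβ⟩ : ∃ β : ℝ, β = δ / (5 * 16 ^ r) := ⟨_, rfl⟩
  have hβ0 : 0 < β := by rw [hβ]; positivity
  obtain ⟨ν, hν⟩ : ∃ ν : ℝ, ν = β / 3 := ⟨_, rfl⟩
  have hν0 : 0 < ν := by rw [hν]; positivity
  obtain ⟨ζ, hζ⟩ : ∃ ζ : ℝ, ζ = β * ν ^ 3 := ⟨_, rfl⟩
  have hζ0 : 0 < ζ := by rw [hζ]; positivity
  obtain ⟨s₀, hs₀⟩ := pow_unbounded_of_one_lt (1 / ((ζ / 2) ^ 2 * ζ)) (one_lt_two (α := ℝ))
  obtain ⟨s, m, n, G, hs, hG1, hG2⟩ := hr (max s₀ s₁)
  obtain ⟨θ, hθ⟩ : ∃ θ : ℝ, θ = ζ / (4 * 2 ^ s) := ⟨_, rfl⟩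
  have hθ0 : 0 < θ := by rw [hθ]; positivity
  obtain ⟨t, ht⟩ := exists_pow_lt_of_lt_one (show 0 < θ ^ 4 by positivity)
    (show 1 - ((1 : ℝ) / 4 / 3 / 3) ^ 2 / 10 < 1 by norm_num)
  obtain ⟨k, hk⟩ := exists_nat_ge ((2 * 2 ^ m : ℝ) ^ (3 * t) / θ ^ 2)
  have hk' : (2 * 2 ^ m : ℝ) ^ (3 * t) ≤ θ ^ 2 * k := by
    rwa [div_le_iff₀' (by positivity)] at hk
  obtain ⟨η, hη⟩ : ∃ η : ℝ, η = min (1 / 4) (ε / (2 * (k * t + 1))) := ⟨_, rfl⟩
  have hη0 : 0 < η := by rw [hη]; positivity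
  have hη1 : η ≤ 1 / 4 := hη ▸ min_le_left _ _
  have hη2 : k * t * η ≤ ε / 2 := by
    have h1 : η ≤ ε / (2 * (k * t + 1)) := hη ▸ min_le_right _ _
    rw [le_div_iff₀ (by positivity)] at h1
    nlinarith
  refine ⟨s, m, k, t, (le_max_right _ _).trans hs,
    (hard_tagP hη0 hη1).red (red_lin G k t ?_ ?_)⟩
  · intro N _ eq σ hσ
    obtain ⟨F, hF⟩ := complete_core (k := k) (t := t) G eq hG1 σ hσ
    exact ⟨F, le_trans (by linarith) hF⟩
  · intro N _ eq hT F
    refine (sound_core G eq (by norm_num) (by norm_num) hθ0 (by positivity) hν0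
      (half_pos hζ0) hG2 hT ht.le hk' F).trans ?_
    have h1 : 1 / ((ζ / 2) ^ 2 * 2 ^ s) ≤ ζ := by
      have h2 : (2 : ℝ) ^ s₀ ≤ 2 ^ s := pow_le_pow_right₀ one_le_two ((le_max_left _ _).trans hs)
      have h3 := hs₀.le.trans h2
      rw [div_le_iff₀ (by positivity)] at h3 ⊢
      linarith
    have h2 : 4 * 2 ^ s * θ = ζ := by rw [hθ]; field_simp
    have h3 : (2 * (ζ / 2) + 1 / ((ζ / 2) ^ 2 * 2 ^ s) + 4 * 2 ^ s * θ) / ν ^ 3 ≤ 3 * β := by
      rw [div_le_iff₀ (by positivity), h2]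
      linarith
    have h4 : (16 : ℝ) ^ r * (4 * β) = 4 * δ / 5 := by rw [hβ]; field_simp
    have h5 : (16 : ℝ) ^ r * (3 * ν + (2 * (ζ / 2) + 1 / ((ζ / 2) ^ 2 * 2 ^ s) +
        4 * 2 ^ s * θ) / ν ^ 3) ≤ 16 ^ r * (4 * β) :=
      mul_le_mul_of_nonneg_left (by linarith) (by positivity)
    linarith

/-! ### The bipartite form -/

/-- The equation `F' v = F u + w` for two labelings. -/
def satB {V A : Type} [Add A] [DecidableEq A] (c : V × V × A) (F : (V → A) × (V → A)) : Bool :=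
  decide (F.2 c.2.1 = F.1 c.1 + c.2.2)

section Bip

variable {V A : Type} [DecidableEq V] [AddCommGroup A] [DecidableEq A] [Fintype A]

/-- Loops which cannot be satisfied are replaced by random equations. -/
def unloop (e : V × V × A) (w : A) : V × V × A :=
  (e.1, e.2.1, if e.1 = e.2.1 ∧ e.2.2 ≠ 0 then w else e.2.2)

theorem expect_ind_add (a b : A) :
    𝔼 w, (if a = b + w then (1 : ℝ) else 0) = 1 / Fintype.card A := by
  have : ∀ w, (a = b + w) ↔ (w = a - b) := fun w => by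
    constructor <;> intro h <;> rw [h] <;> abel
  simp only [this, Fintype.expect_eq_sum_div_card, sum_ite_eq', mem_univ, if_true]

theorem red_bip [Enc V] [EncInj V] [Enc A] [EncInj A] (c s : ℝ) :
    Red (Gap (satL (V := V) (A := A)) c s)
      (Gap (satB (V := V) (A := A)) c (5 * s + 1 / Fintype.card A)) := by
  refine red_blow (φ := unloop) (fun w => PT.fst'.pair (PT.snd'.fst.pair (PT.ite
    (PT.decide_and (PT.eq PT.fst' PT.snd'.fst) (PT.decide_not (PT.eqConst PT.snd'.snd 0)))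
    (PT.const w) PT.snd'.snd))) (fun l F hF => ⟨(F, F), hF.trans (sum_le_sum fun i _ => ?_)⟩)
    fun l hl F => ?_
  · refine le_expect univ_nonempty fun w _ => ?_
    by_cases h : satL l[i] F = true
    · have h1 : ¬ (l[i].1 = l[i].2.1 ∧ l[i].2.2 ≠ 0) := fun h2 => h2.2 (by
        have h3 := of_decide_eq_true h
        rw [h2.1] at h3
        exact left_eq_add.1 h3)
      have h2 : satB (unloop l[i] w) (F, F) = true := by
        simp only [satB, unloop, if_neg h1]
        exact h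
      rw [if_pos h, if_pos h2]
    · rw [if_neg h]
      split_ifs <;> norm_num
  · obtain ⟨S, hS⟩ : ∃ S : Finset V, ∀ i : Fin l.length, l[i].1 ∈ S ∧ l[i].2.1 ∈ S :=
      ⟨univ.image (fun i : Fin l.length => l[i].1) ∪ univ.image (fun i : Fin l.length => l[i].2.1),
        fun i => ⟨mem_union_left _ (mem_image_of_mem _ (mem_univ i)),
          mem_union_right _ (mem_image_of_mem _ (mem_univ i))⟩⟩
    obtain ⟨H, hH⟩ : ∃ H : (S → Bool) → V → A, ∀ σ v (h : v ∈ S),
        H σ v = if σ ⟨v, h⟩ = true then F.1 v else F.2 v :=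
      ⟨fun σ v => if h : v ∈ S then (if σ ⟨v, h⟩ = true then F.1 v else F.2 v) else 0,
        fun σ v h => by simp only [dif_pos h]⟩
    have hq : (0 : ℝ) ≤ 1 / Fintype.card A := by positivity
    have key : ∀ i : Fin l.length,
        (𝔼 w, if satB (unloop l[i] w) F = true then (1 : ℝ) else 0) ≤ 1 / Fintype.card A +
          (if satL l[i] F.1 = true then (1 : ℝ) else 0) +
          4 * 𝔼 σ : S → Bool, if satL l[i] (H σ) = true then (1 : ℝ) else 0 := by
      intro i
      have p1 : (0 : ℝ) ≤ if satL l[i] F.1 = true then (1 : ℝ) else 0 := by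
        split_ifs <;> norm_num
      have p2 : (0 : ℝ) ≤ 𝔼 σ : S → Bool, if satL l[i] (H σ) = true then (1 : ℝ) else 0 :=
        expect_nonneg fun _ _ => by split_ifs <;> norm_num
      by_cases h1 : l[i].1 = l[i].2.1
      · by_cases h2 : l[i].2.2 = 0
        · have h3 : satL l[i] F.1 = true := decide_eq_true (by rw [h1, h2, add_zero])
          rw [if_pos h3]
          refine (expect_le univ_nonempty fun w _ => (?_ : _ ≤ (1 : ℝ))).trans (by linarith)
          split_ifs <;> norm_num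
        · simp only [satB, unloop, if_pos (And.intro h1 h2), decide_eq_true_eq, expect_ind_add]
          linarith
      · have h2 : ¬ (l[i].1 = l[i].2.1 ∧ l[i].2.2 ≠ 0) := fun h => h1 h.1
        simp only [satB, unloop, if_neg h2, decide_eq_true_eq, Fintype.expect_const]
        by_cases h3 : F.2 l[i].2.1 = F.1 l[i].1 + l[i].2.2
        · rw [if_pos h3]
          have h4 := expect_two (a := (⟨_, (hS i).1⟩ : S)) (b := ⟨_, (hS i).2⟩)
            (fun h => h1 (congrArg Subtype.val h)) (fun b : Bool => if b = true then (1 : ℝ) else 0)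
            (fun b : Bool => if b = true then (0 : ℝ) else 1)
          have h5 : 1 / 4 ≤ 𝔼 σ : S → Bool, if satL l[i] (H σ) = true then (1 : ℝ) else 0 := by
            refine le_trans (le_of_eq ?_) (h4.symm.le.trans (expect_le_expect fun σ _ => ?_))
            · simp only [Fintype.expect_eq_sum_div_card, Fintype.sum_bool]
              norm_num
            · simp only [satL, hH σ _ (hS i).1, hH σ _ (hS i).2, decide_eq_true_eq]
              split_ifs <;> simp_all
          linarith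
        · rw [if_neg h3]
          linarith
    refine (sum_le_sum fun i _ => key i).trans ?_
    simp only [sum_add_distrib, ← mul_sum, ← expect_sum_comm, sum_const, card_univ,
      Fintype.card_fin, nsmul_eq_mul]
    have h6 : (𝔼 σ : S → Bool, ∑ i : Fin l.length,
        if satL l[i] (H σ) = true then (1 : ℝ) else 0) ≤ s * l.length :=
      expect_le univ_nonempty fun σ _ => hl (H σ)
    nlinarith [hl F.1]

end Bip

/-! ### The long code over a group -/

/-- The equation `F' v = γ * F u` for two labelings. -/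
def satG {U V Γ : Type} [Mul Γ] [DecidableEq Γ] (c : U × V × Γ) (F : (U → Γ) × (V → Γ)) : Bool :=
  decide (F.2 c.2.1 = c.2.2 * F.1 c.1)

theorem expect_prod3 {X Y Z : Type} [Fintype X] [Fintype Y] [Fintype Z] (φ : X × Y × Z → ℝ) :
    𝔼 t, φ t = 𝔼 x, 𝔼 y, 𝔼 z, φ (x, y, z) := by
  simp only [← univ_product_univ, expect_product]

section Long

variable {V A Γ : Type} [DecidableEq V] [AddCommGroup A] [DecidableEq A] [Fintype A] [Group Γ]
  [Fintype Γ] [DecidableEq Γ]

/-- The equation of the test for a point, a noise pattern and a shift. -/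
def lcEdge {N : ℕ} (e : V × V × A) (t : (A → Γ) × (A → Fin N × Γ) × Γ) :
    (V × (A → Γ)) × (V × (A → Γ)) × Γ :=
  ((e.1, t.1), (e.2.1, fun b => t.2.2 *
    ((fun a => nz (t.1 a) (t.2.1 a)) ∘ (Equiv.addRight e.2.2).symm) b), t.2.2)

/-- The folded table. -/
noncomputable def fold (f : (A → Γ) → Γ) (g : Γ) (y : A → Γ) : ℝ :=
  𝔼 γ, if f (fun b => γ * y b) = γ * g then 1 else 0

omit [AddCommGroup A] [DecidableEq A] [Fintype A] in
theorem simp_fold (f : (A → Γ) → Γ) : Simp (fold f) := by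
  refine ⟨fun g y => expect_nonneg fun _ _ => by split_ifs <;> norm_num, fun y => ?_⟩
  simp only [fold, ← expect_sum_comm]
  refine expect_le univ_nonempty fun γ _ => le_of_eq ?_
  simp only [← inv_mul_eq_iff_eq_mul, sum_ite_eq, mem_univ, if_true]

omit [AddCommGroup A] in
theorem expect_fold (f : (A → Γ) → Γ) (g : Γ) : 𝔼 y, fold f g y = 1 / Fintype.card Γ := by
  simp only [fold]
  rw [expect_comm]
  have h1 : ∀ γ : Γ, (𝔼 y : A → Γ, if f (fun b => γ * y b) = γ * g then (1 : ℝ) else 0) =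
      𝔼 y : A → Γ, if f y = γ * g then (1 : ℝ) else 0 := fun γ =>
    Fintype.expect_equiv ((Equiv.refl A).arrowCongr (Equiv.mulLeft γ)) _ _ fun _ => rfl
  simp only [h1]
  rw [expect_comm]
  have h2 : ∀ y : A → Γ, (𝔼 γ : Γ, if f y = γ * g then (1 : ℝ) else 0) = 1 / Fintype.card Γ := by
    intro y
    simp only [← mul_inv_eq_iff_eq_mul, Fintype.expect_eq_sum_div_card, sum_ite_eq, mem_univ,
      if_true]
  simp only [h2, Fintype.expect_const]

omit [DecidableEq V] in
theorem lc_accept {N : ℕ} (e : V × V × A) (F : (V × (A → Γ) → Γ) × (V × (A → Γ) → Γ)) :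
    (𝔼 t : (A → Γ) × (A → Fin N × Γ) × Γ, if satG (lcEdge e t) F = true then (1 : ℝ) else 0) =
      ∑ g, 𝔼 x, 𝔼 r : A → Fin N × Γ, (if F.1 (e.1, x) = g then (1 : ℝ) else 0) *
        fold (fun z => F.2 (e.2.1, z)) g
          ((fun a => nz (x a) (r a)) ∘ (Equiv.addRight e.2.2).symm) := by
  rw [expect_prod3]
  simp only [← expect_sum_comm, ite_mul, one_mul, zero_mul, sum_ite_eq, mem_univ, if_true, fold]
  exact expect_congr rfl fun x _ => expect_congr rfl fun r _ => expect_congr rfl fun γ _ =>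
    if_congr decide_eq_true_iff rfl rfl

theorem red_long [Enc V] [Enc A] [EncInj A] [Enc Γ] {N : ℕ} (hN : 0 < N) (d : ℕ) {θ τ : ℝ}
    (hθ : 0 < θ) (hτ : 0 < τ) (c s : ℝ) :
    Red (Gap (satB (V := V) (A := A)) c s) (Gap (satG (U := V × (A → Γ)) (V := V × (A → Γ))
      (Γ := Γ)) ((1 - 1 / N) * c) (kbd N d (Fintype.card Γ) θ τ + d * s / τ)) := by
  have : Nonempty (Fin N) := ⟨⟨0, hN⟩⟩
  have hρ0 : 0 ≤ 1 - 1 / (N : ℝ) := by
    rw [sub_nonneg, div_le_one (by exact_mod_cast hN)]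
    exact_mod_cast hN
  refine red_blow (φ := lcEdge (N := N)) (fun t => (PT.fst'.pair (PT.const _)).pair
    ((PT.snd'.fst.pair (PT.finComp (fun w : A => fun b => t.2.2 *
      ((fun a => nz (t.1 a) (t.2.1 a)) ∘ (Equiv.addRight w).symm) b) PT.snd'.snd)).pair
      (PT.const _))) (fun l σ hσ => ⟨(fun p => p.2 (σ.1 p.1), fun p => p.2 (σ.2 p.1)), ?_⟩)
    fun l hl F => ?_
  · rw [mul_assoc]
    refine (mul_le_mul_of_nonneg_left hσ hρ0).trans ?_
    rw [mul_sum]
    refine sum_le_sum fun i _ => ?_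
    split_ifs with h
    · have h1 : (Equiv.addRight l[i].2.2).symm (σ.2 l[i].2.1) = σ.1 l[i].1 := by
        rw [of_decide_eq_true h]
        exact (Equiv.addRight l[i].2.2).symm_apply_apply _
      have h2 : 𝔼 t : (A → Γ) × (A → Fin N × Γ) × Γ,
          (if ((t.2.1 (σ.1 l[i].1)).1 : ℕ) = 0 then (0 : ℝ) else 1) = 1 - 1 / (N : ℝ) := by
        rw [expect_prod3]
        change (𝔼 _x : A → Γ, 𝔼 r : A → Fin N × Γ, 𝔼 _γ : Γ,
          (if ((r (σ.1 l[i].1)).1 : ℕ) = 0 then (0 : ℝ) else 1)) = _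
        simp only [Fintype.expect_const]
        rw [expect_coord (fun r : Fin N × Γ => if (r.1 : ℕ) = 0 then (0 : ℝ) else 1),
          ← univ_product_univ, expect_product]
        change (𝔼 t : Fin N, 𝔼 _γ : Γ, (if (t : ℕ) = 0 then (0 : ℝ) else 1)) = _
        simp only [Fintype.expect_const, expect_fin_zero hN]
        ring
      rw [mul_one, ← h2]
      refine expect_le_expect fun t _ => ?_
      simp only [satG, lcEdge, Function.comp_apply, h1, nz, decide_eq_true_eq]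
      split_ifs <;> simp_all
    · rw [mul_zero]
      exact expect_nonneg fun _ _ => by split_ifs <;> norm_num
  · obtain ⟨G, hG⟩ : ∃ G : Fin l.length → Γ → (A → Γ) → ℝ, ∀ i g y,
        G i g y = fold (fun z => F.2 (l[i].2.1, z)) g (y ∘ (Equiv.addRight l[i].2.2).symm) :=
      ⟨_, fun _ _ _ => rfl⟩
    have hG1 : ∀ i, Simp (G i) := fun i =>
      ⟨fun g y => hG i g y ▸ (simp_fold _).1 _ _, fun y => by
        simp only [hG]
        exact (simp_fold _).2 _⟩
    have hG2 : ∀ i g, 𝔼 y, G i g y ≤ 1 / Fintype.card Γ := fun i g => by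
      rw [← expect_fold (fun z => F.2 (l[i].2.1, z)) g]
      exact le_of_eq (Fintype.expect_equiv
        ((Equiv.addRight l[i].2.2).arrowCongr (Equiv.refl Γ)) _ _ fun y => hG i g y)
    have hG3 : ∀ i g a, infl d (G i g) a =
        infl d (fold (fun z => F.2 (l[i].2.1, z)) g) (a + l[i].2.2) := fun i g a => by
      rw [show G i g = _ from funext (hG i g)]
      exact infl_perm d _ _ a
    simp only [lc_accept, ← hG]
    obtain ⟨σ, hσ⟩ := group_le (fun i : Fin l.length => l[i].1)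
      (fun i => ∑ g, 𝔼 x, 𝔼 r : A → Fin N × Γ, (if F.1 (l[i].1, x) = g then (1 : ℝ) else 0) *
        G i g (fun a => nz (x a) (r a)))
      (fun i a => kbd N d (Fintype.card Γ) θ τ + (∑ g, infl d (G i g) a) / τ) fun u => by
        obtain ⟨a, ha⟩ := stab_family hN d (univ.filter fun i : Fin l.length => l[i].1 = u)
          (F := fun g x => if F.1 (u, x) = g then (1 : ℝ) else 0)
          ⟨fun _ _ => by dsimp only; split_ifs <;> norm_num, fun x => by simp⟩ hG1 hG2 hθ hτ
        refine ⟨a, le_trans (le_of_eq (sum_congr rfl fun i hi => ?_)) (ha.trans (le_of_eq ?_))⟩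
        · rw [(mem_filter.1 hi).2]
        · rw [sum_add_distrib, sum_const, nsmul_eq_mul, sum_div]
    refine hσ.trans ?_
    have h1 := frac_le (fun i : Fin l.length => l[i].2.1)
      (fun i b => if b = σ l[i].1 + l[i].2.2 then (1 : ℝ) else 0)
      (fun _ _ => by split_ifs <;> norm_num) (S := s * l.length)
      (fun σ' => by simpa only [satB, decide_eq_true_eq] using hl (σ, σ'))
      (fun v b => ∑ g, infl d (fold (fun z => F.2 (v, z)) g) b) (Nat.cast_nonneg d)
      (fun v b => sum_nonneg fun g _ => infl_nonneg _ _ _) fun v => by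
        rw [sum_comm]
        refine (sum_le_sum fun g _ => sum_infl_le d _).trans ?_
        rw [← mul_sum]
        exact mul_le_of_le_one_right (Nat.cast_nonneg d) (simp_fold _).sum_sq_le
    simp only [mul_ite, mul_one, mul_zero, sum_ite_eq', mem_univ, if_true, ← hG3] at h1
    rw [sum_add_distrib, ← sum_div, sum_const, card_univ, Fintype.card_fin, nsmul_eq_mul,
      add_mul, mul_comm, div_mul_eq_mul_div, mul_assoc]
    exact add_le_add le_rfl (div_le_div_of_nonneg_right h1 hτ.le)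

end Long

/-! ### Parameters -/

theorem one_sub_pow_le {N : ℕ} (hN : 0 < N) : (1 - 1 / (N : ℝ)) ^ N ≤ 1 / 2 := by
  have hN1 : (1 : ℝ) ≤ N := by exact_mod_cast hN
  have h0 : (0 : ℝ) ≤ 1 / N := by positivity
  have h1 : 1 / (N : ℝ) ≤ 1 := by rwa [div_le_one (by linarith)]
  have h2 : 1 + N * (1 / (N : ℝ)) ≤ (1 + 1 / (N : ℝ)) ^ N := one_add_mul_le_pow (by linarith) N
  have h3 : (1 - 1 / (N : ℝ)) ^ N * (1 + 1 / (N : ℝ)) ^ N ≤ 1 := by
    rw [← mul_pow]
    exact pow_le_one₀ (mul_nonneg (by linarith) (by linarith)) (by nlinarith)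
  have h4 : 0 ≤ (1 - 1 / (N : ℝ)) ^ N := pow_nonneg (by linarith) N
  rw [mul_one_div_cancel (by linarith)] at h2
  nlinarith

theorem exists_params {ε δ : ℝ} (hε : 0 < ε) (hε1 : ε ≤ 1) (hδ : 0 < δ) (hδ1 : δ ≤ 1) {q : ℕ}
    (hq : (8 / δ) ^ (16 / ε) ≤ (q : ℝ)) : ∃ (N d : ℕ) (θ τ : ℝ), 0 < N ∧ 1 / (N : ℝ) ≤ ε / 2 ∧
      0 < θ ∧ 0 < τ ∧ kbd N d q θ τ ≤ 3 / 4 * δ := by
  obtain ⟨N, hN⟩ : ∃ N : ℕ, N = ⌈2 / ε⌉₊ := ⟨_, rfl⟩
  have hN1 : 2 / ε ≤ N := hN ▸ Nat.le_ceil _
  have hN0 : (0 : ℝ) < N := lt_of_lt_of_le (by positivity) hN1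
  have hN2 : (N : ℝ) ≤ 3 / ε := by
    have h1 : (N : ℝ) < 2 / ε + 1 := hN ▸ Nat.ceil_lt_add_one (by positivity)
    have h2 : 1 ≤ 1 / ε := by rwa [le_div_iff₀ hε, one_mul]
    have h3 : 3 / ε = 2 / ε + 1 / ε := by ring
    linarith
  have h8 : 1 ≤ 8 / δ := by rw [le_div_iff₀ hδ]; linarith
  obtain ⟨j, hj1, hj2⟩ := exists_nat_pow_near (x := 4 / δ) (y := (2 : ℝ))
    (by rw [le_div_iff₀ hδ]; linarith) one_lt_two
  have hq0 : (0 : ℝ) < q := lt_of_lt_of_le (by positivity) hq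
  obtain ⟨d, hd⟩ : ∃ d, d = N * (j + 1) := ⟨_, rfl⟩
  refine ⟨N, d, δ / 4, δ * (δ / 4) ^ 3 / (8 * 16 ^ d * q ^ d * (d + 1)), by exact_mod_cast hN0, ?_,
    by positivity, by positivity, ?_⟩
  · rw [div_le_iff₀ hN0]
    rw [div_le_iff₀ hε] at hN1
    linarith
  have hρ0 : 0 ≤ 1 - 1 / (N : ℝ) := by
    rw [sub_nonneg, div_le_one hN0]
    exact_mod_cast (by exact_mod_cast hN0 : 0 < N)
  have h1 : (1 - 1 / (N : ℝ)) ^ d ≤ δ / 4 := by
    rw [hd, pow_mul]
    refine (pow_le_pow_left₀ (pow_nonneg hρ0 _) (one_sub_pow_le (by exact_mod_cast hN0)) _).trans ?_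
    rw [one_div, inv_pow, inv_le_comm₀ (by positivity) (by positivity), inv_div]
    exact hj2.le
  have h2 : (16 : ℝ) ^ d ≤ (8 / δ) ^ (12 / ε) := by
    have e1 : (16 : ℝ) ^ d = (2 ^ (j + 1)) ^ (4 * N) := by
      rw [hd, show (16 : ℝ) = 2 ^ 4 by norm_num, ← pow_mul, ← pow_mul]
      congr 1
      ring
    have e2 : (2 : ℝ) ^ (j + 1) ≤ 8 / δ := by
      rw [pow_succ]
      have : 8 / δ = 4 / δ * 2 := by ring
      linarith
    rw [e1]
    refine (pow_le_pow_left₀ (by positivity) e2 _).trans ?_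
    rw [← Real.rpow_natCast]
    refine Real.rpow_le_rpow_of_exponent_le h8 ?_
    have : 12 / ε = 4 * (3 / ε) := by ring
    push_cast
    linarith
  have h3 : (8 / δ) ^ 4 ≤ (8 / δ) ^ (4 / ε) := by
    rw [← Real.rpow_natCast]
    refine Real.rpow_le_rpow_of_exponent_le h8 ?_
    rw [le_div_iff₀ hε]
    push_cast
    linarith
  have h4 : (16 : ℝ) ^ d * (8 / δ) ^ 4 ≤ q := by
    refine le_trans ?_ hq
    rw [show 16 / ε = 12 / ε + 4 / ε by ring, Real.rpow_add (by positivity)]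
    exact mul_le_mul h2 h3 (by positivity) (by positivity)
  have h5 : (16 : ℝ) ^ d * (1 / q) / (δ / 4) ^ 3 ≤ δ / 8 := by
    rw [mul_one_div, div_div, div_le_iff₀ (by positivity)]
    have e1 : δ / 8 * (q * (δ / 4) ^ 3) = q * (δ ^ 4 / 512) := by ring
    have e2 : (16 : ℝ) ^ d = 16 ^ d * (8 / δ) ^ 4 * (δ ^ 4 / 4096) := by field_simp; norm_num
    rw [e1, e2]
    exact mul_le_mul h4 (by nlinarith [pow_pos hδ 4]) (by positivity) hq0.le
  have h6 : (16 : ℝ) ^ d * (q ^ d * d * (δ * (δ / 4) ^ 3 / (8 * 16 ^ d * q ^ d * (d + 1)))) /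
      (δ / 4) ^ 3 ≤ δ / 8 := by
    have e1 : (16 : ℝ) ^ d * (q ^ d * d * (δ * (δ / 4) ^ 3 / (8 * 16 ^ d * q ^ d * (d + 1)))) /
        (δ / 4) ^ 3 = δ / 8 * (d / (d + 1)) := by field_simp
    rw [e1]
    exact mul_le_of_le_one_right (by positivity) (by
      rw [div_le_one (by positivity)]
      linarith)
  rw [kbd, mul_add, add_div]
  linarith

/-- Linear equations over a large group are hard. -/
theorem hard_group {Γ : Type} [Group Γ] [Fintype Γ] [DecidableEq Γ] [Enc Γ] [EncInj Γ] {ε δ : ℝ}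
    (hε : 0 < ε) (hε1 : ε ≤ 1) (hδ : 0 < δ) (hδ1 : δ ≤ 1)
    (hq : (8 / δ) ^ (16 / ε) ≤ (Fintype.card Γ : ℝ)) :
    ∃ (W : Type) (_ : DecidableEq W) (_ : Enc W) (_ : EncInj W),
      Hard (Gap (satG (U := W) (V := W) (Γ := Γ)) (1 - ε) δ) := by
  obtain ⟨N, d, θ, τ, hN, hN1, hθ, hτ, hk⟩ := exists_params hε hε1 hδ hδ1 hq
  obtain ⟨β, hβ⟩ : ∃ β : ℝ, β = δ * τ / (24 * (d + 1)) := ⟨_, rfl⟩
  have hβ0 : 0 < β := by rw [hβ]; positivity
  obtain ⟨s₁, hs₁⟩ := pow_unbounded_of_one_lt (1 / β) (one_lt_two (α := ℝ))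
  obtain ⟨s, m, k, t, hs, h⟩ := hard_lin (half_pos hε) hβ0 s₁
  have : DecidableEq (Name k t (Vec m)) := Classical.decEq _
  refine ⟨Name k t (Vec m) × (Vec s → Γ), inferInstance, inferInstance, inferInstance,
    ((h.red (red_bip _ _)).red (red_long hN d hθ hτ _ _)).gap_mono ?_ ?_⟩
  · have : (0 : ℝ) ≤ 1 / N := by positivity
    nlinarith
  · have h1 : 1 / (Fintype.card (Vec s) : ℝ) ≤ β := by
      have e1 : (Fintype.card (Vec s) : ℝ) = 2 ^ s := by simp [Vec]
      have e2 : (2 : ℝ) ^ s₁ ≤ 2 ^ s := pow_le_pow_right₀ one_le_two hs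
      rw [e1, div_le_iff₀ (by positivity)]
      rw [div_lt_iff₀ hβ0] at hs₁
      nlinarith
    have h2 : d * (5 * β + 1 / (Fintype.card (Vec s) : ℝ)) / τ ≤ δ / 4 := by
      rw [div_le_iff₀ hτ]
      have e1 : (d + 1) * (6 * β) = δ / 4 * τ := by rw [hβ]; field_simp; norm_num
      have e2 : (0 : ℝ) ≤ d := Nat.cast_nonneg d
      nlinarith
    linarith

end Vale.Agent.N325
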