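import Vale.Agent.N325.Red
import Vale.Agent.N325.Defs

/-!
Regular and strongly satisfiable instances.
-/

namespace Vale.Agent.N325

open Finset Vale.Agent.Lib.PCP Vale.Agent.Lib.PolyTime Vale.Agent.P325
open scoped BigOperators

/-! ### Rotations inside the classes of positions with the same key -/

theorem sum_mod_shift (ψ : ℕ → ℝ) (c i : ℕ) :
    ∑ t ∈ range c, ψ ((i + t) % c) = ∑ t ∈ range c, ψ t := by
  induction i with
  | zero => exact sum_congr rfl fun t ht => by rw [zero_add, Nat.mod_eq_of_lt (mem_range.1 ht)]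
  | succ i ih =>
    have h1 := sum_range_succ (fun t => ψ ((i + t) % c)) c
    have h2 := sum_range_succ' (fun t => ψ ((i + t) % c)) c
    simp only [Nat.add_mod_right, add_zero] at h1 h2
    rw [← ih]
    have h3 : ∑ t ∈ range c, ψ ((i + 1 + t) % c) = ∑ t ∈ range c, ψ ((i + (t + 1)) % c) :=
      sum_congr rfl fun t _ => by rw [add_assoc, add_comm 1 t]
    linarith

theorem sum_mod_mul (ψ : ℕ → ℝ) (c i n : ℕ) :
    ∑ t ∈ range (c * n), ψ ((i + t) % c) = n * ∑ t ∈ range c, ψ t := by
  induction n with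
  | zero => simp
  | succ n ih =>
    rw [Nat.mul_succ, sum_range_add, ih]
    simp only [← add_assoc, sum_mod_shift]
    push_cast
    ring

theorem sum_mod_le (ψ : ℕ → ℝ) (h : ∀ t, 0 ≤ ψ t) {c m : ℕ} (hc : 0 < c) (hm : c ≤ m) (i : ℕ) :
    c * ∑ t ∈ range m, ψ ((i + t) % c) ≤ 2 * m * ∑ t ∈ range c, ψ t := by
  have h1 : ∑ t ∈ range m, ψ ((i + t) % c) ≤ ∑ t ∈ range (c * (m / c + 1)), ψ ((i + t) % c) :=
    sum_le_sum_of_subset_of_nonneg (range_mono (Nat.lt_mul_div_succ m hc).le) fun _ _ _ => h _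
  rw [sum_mod_mul] at h1
  have h2 : (c : ℝ) * ((m / c + 1 : ℕ) : ℝ) ≤ 2 * m := by
    have := Nat.mul_div_le m c
    exact_mod_cast (by rw [Nat.mul_succ]; omega : c * (m / c + 1) ≤ 2 * m)
  refine (mul_le_mul_of_nonneg_left h1 (Nat.cast_nonneg c)).trans ?_
  rw [← mul_assoc]
  exact mul_le_mul_of_nonneg_right h2 (sum_nonneg fun _ _ => h _)

section Rot

variable {K : Type} [DecidableEq K]

/-- The positions with the same key as `p`. -/
def cls (l : List K) (p : ℕ) : List ℕ := (List.range l.length).filter fun p' => l[p']? = l[p]?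

/-- Rotation by `t` steps inside the class. -/
def rotc (l : List K) (p t : ℕ) : ℕ :=
  (cls l p).getD (((cls l p).idxOf p + t) % (cls l p).length) 0

theorem mem_cls {l : List K} {p p' : ℕ} : p' ∈ cls l p ↔ p' < l.length ∧ l[p']? = l[p]? := by
  simp [cls]

theorem nodup_cls (l : List K) (p : ℕ) : (cls l p).Nodup := List.nodup_range.filter _

theorem cls_congr {l : List K} {p p' : ℕ} (h : l[p]? = l[p']?) : cls l p = cls l p' := by
  simp only [cls, h]

theorem cls_pos {l : List K} {p : ℕ} (h : p < l.length) : 0 < (cls l p).length :=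
  List.length_pos_of_mem (mem_cls.2 ⟨h, rfl⟩)

theorem rotc_eq {l : List K} {p : ℕ} (h : p < l.length) (t : ℕ) : rotc l p t =
    (cls l p)[((cls l p).idxOf p + t) % (cls l p).length]'(Nat.mod_lt _ (cls_pos h)) :=
  List.getD_eq_getElem _ _ _

theorem rotc_mem {l : List K} {p : ℕ} (h : p < l.length) (t : ℕ) : rotc l p t ∈ cls l p := by
  rw [rotc_eq h]
  exact List.getElem_mem _

theorem rotc_lt {l : List K} {p : ℕ} (h : p < l.length) (t : ℕ) : rotc l p t < l.length :=
  (mem_cls.1 (rotc_mem h t)).1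

theorem key_rotc {l : List K} {p : ℕ} (h : p < l.length) (t : ℕ) : l[rotc l p t]? = l[p]? :=
  (mem_cls.1 (rotc_mem h t)).2

theorem rotc_inj {l : List K} {p p' : ℕ} (h : p < l.length) (h' : p' < l.length) {t : ℕ}
    (e : rotc l p t = rotc l p' t) : p = p' := by
  have h1 : l[p]? = l[p']? := by rw [← key_rotc h t, e, key_rotc h' t]
  have h2 := cls_congr h1
  have m1 : p ∈ cls l p' := mem_cls.2 ⟨h, h1⟩
  have m2 : p' ∈ cls l p' := mem_cls.2 ⟨h', rfl⟩
  rw [rotc_eq h, rotc_eq h'] at e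
  simp only [h2] at e
  have h3 := (List.Nodup.getElem_inj_iff (nodup_cls l p')).1 e
  have h4 : (cls l p').idxOf p = (cls l p').idxOf p' :=
    Nat.ModEq.eq_of_lt_of_lt (Nat.ModEq.add_right_cancel' t h3) (List.idxOf_lt_length_iff.2 m1)
      (List.idxOf_lt_length_iff.2 m2)
  exact (List.idxOf_inj m1).1 h4

theorem sum_rotc (l : List K) (t : ℕ) (φ : ℕ → ℝ) :
    ∑ p ∈ range l.length, φ (rotc l p t) = ∑ p ∈ range l.length, φ p := by
  have h1 : (range l.length).image (fun p => rotc l p t) = range l.length := by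
    refine eq_of_subset_of_card_le (fun x hx => ?_) (le_of_eq (card_image_of_injOn ?_).symm)
    · obtain ⟨p, hp, rfl⟩ := mem_image.1 hx
      exact mem_range.2 (rotc_lt (mem_range.1 hp) t)
    · exact fun p hp p' hp' e => rotc_inj (mem_range.1 hp) (mem_range.1 hp') e
  conv_rhs => rw [← h1]
  exact (sum_image fun p hp p' hp' e => rotc_inj (mem_range.1 hp) (mem_range.1 hp') e).symm

theorem sum_cls (l : List K) (p : ℕ) (φ : ℕ → ℝ) : ∑ t ∈ range (cls l p).length,
    φ ((cls l p).getD t 0) = ∑ p' ∈ (range l.length).filter (fun p' => l[p']? = l[p]?), φ p' := by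
  rw [← sum_map_eq_sum_range, ← List.sum_toFinset _ (nodup_cls l p)]
  refine sum_congr ?_ fun _ _ => rfl
  ext x
  simp [mem_cls]

theorem length_cls (l : List K) (p : ℕ) :
    (cls l p).length = ((range l.length).filter (fun p' => l[p']? = l[p]?)).card := by
  have := sum_cls l p fun _ => 1
  simpa using this

/-- Labelings of the positions are at most twice as good as labelings of the keys. -/
theorem rot_frac {B : Type} [Fintype B] [DecidableEq B] [Nonempty B] (l : List K) {m : ℕ}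
    (hm : l.length = m) (w : Fin m → B → ℝ) (hw : ∀ p b, 0 ≤ w p b) {S : ℝ}
    (h : ∀ F : Option K → B, ∑ p, w p (F l[(p : ℕ)]?) ≤ S) (H : ℕ → B) :
    ∑ p : Fin m, ∑ t ∈ range m, w p (H (rotc l p t)) ≤ 2 * m * S := by
  subst hm
  obtain ⟨q, hq⟩ : ∃ q : Option K → B → ℝ, ∀ v b, q v b =
      (∑ p' ∈ (range l.length).filter (fun p' => l[p']? = v), if H p' = b then (1 : ℝ) else 0) /
        ((range l.length).filter (fun p' => l[p']? = v)).card := ⟨_, fun _ _ => rfl⟩
  have h1 := frac_le (fun p : Fin l.length => l[(p : ℕ)]?) w hw h q zero_le_one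
    (fun v b => hq v b ▸ div_nonneg (sum_nonneg fun _ _ => by split_ifs <;> norm_num)
      (Nat.cast_nonneg _)) fun v => by
      simp only [hq, ← sum_div]
      rw [sum_comm]
      simp only [sum_ite_eq, mem_univ, if_true, sum_const, nsmul_eq_mul, mul_one]
      exact div_self_le_one _
  rw [one_mul] at h1
  refine le_trans ?_ (mul_le_mul_of_nonneg_left h1 (by positivity))
  rw [mul_sum]
  refine sum_le_sum fun p _ => ?_
  have h2 := sum_mod_le (fun t => w p (H ((cls l p).getD t 0))) (fun _ => hw _ _) (cls_pos p.2)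
    (m := l.length) ((List.length_filter_le _ _).trans (by simp)) ((cls l p).idxOf (p : ℕ))
  have h3 : (0 : ℝ) < (cls l p).length := by exact_mod_cast cls_pos p.2
  rw [sum_cls l p fun p' => w p (H p')] at h2
  refine le_of_mul_le_mul_left (h2.trans (le_of_eq ?_)) h3
  simp only [hq, ← length_cls, div_mul_eq_mul_div, ← sum_div, sum_mul]
  rw [sum_comm]
  simp only [ite_mul, one_mul, zero_mul, sum_ite_eq, mem_univ, if_true]
  field_simp

theorem PT_rotc {α : Type} [Enc α] [Enc K] [EncInj K] {l : α → List K} {p t : α → ℕ}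
    (hl : PT ∅ l) (hp : PT ∅ p) (ht : PT ∅ t) : PT ∅ fun a => rotc (l a) (p a) (t a) := by
  have hc : PT ∅ fun a => cls (l a) (p a) :=
    PT.filter (f := fun a p' => decide ((l a)[p']? = (l a)[p a]?))
      (PT.range hl.length (PBd.length hl))
      (PT.eq (PT.getElem? (hl.comp PT.fst') PT.snd')
        (PT.getElem? (hl.comp PT.fst') (hp.comp PT.fst')))
  exact PT.getD hc (PT.mod (PT.add (PT.idxOf hc hp) ht) hc.length) (PT.const 0)

end Rot

/-! ### Numbered instances -/

/-- Numbers of left and right vertices and a list of equations. -/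
abbrev Inst (Γ : Type) : Type := Un × Un × List (ℕ × ℕ × Γ)

/-- Well formed instances with left degree `d` and right degree `D`. -/
structure WF {Γ : Type} (I : Inst Γ) (d D : ℕ) : Prop where
  ne : I.2.2 ≠ []
  lt : ∀ e ∈ I.2.2, e.1 < I.1.v ∧ e.2.1 < I.2.1.v
  left : ∀ u < I.1.v, I.2.2.countP (fun e => e.1 = u) = d
  right : ∀ v < I.2.1.v, I.2.2.countP (fun e => e.2.1 = v) = D

theorem satG_iff {U V Γ : Type} [Mul Γ] [DecidableEq Γ] {c : U × V × Γ} {F : (U → Γ) × (V → Γ)} :
    satG c F = true ↔ F.2 c.2.1 = c.2.2 * F.1 c.1 := decide_eq_true_iff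

section Reg

variable {U V Γ : Type} [DecidableEq U] [DecidableEq V]

/-- The regular instance. -/
def regl (l : List (U × V × Γ)) : List (ℕ × ℕ × Γ) :=
  l.zipIdx.flatMap fun x => (List.range l.length).flatMap fun t => (List.range l.length).map
    fun t' => (rotc (l.map fun e => e.1) x.2 t, rotc (l.map fun e => e.2.1) x.2 t', x.1.2.2)

theorem sum_regl (l : List (U × V × Γ)) (φ : ℕ × ℕ × Γ → ℝ) :
    ((regl l).map φ).sum = ∑ p : Fin l.length, ∑ t ∈ range l.length, ∑ t' ∈ range l.length,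
      φ (rotc (l.map fun e => e.1) p t, rotc (l.map fun e => e.2.1) p t', l[p].2.2) := by
  rw [regl, sum_map_flatMap, sum_map_zipIdx]
  simp only [sum_map_flatMap, List.map_map, sum_map_range, Function.comp_apply]

theorem length_regl (l : List (U × V × Γ)) : ((regl l).length : ℝ) = l.length ^ 3 := by
  have h := sum_regl l fun _ => 1
  rw [sum_map_const, one_mul] at h
  rw [h]
  simp
  ring

theorem wf_regl {l : List (U × V × Γ)} (hl : l ≠ []) :
    WF (⟨l.length⟩, ⟨l.length⟩, regl l) (l.length ^ 2) (l.length ^ 2) := by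
  have h0 : 0 < l.length := List.length_pos_iff.2 hl
  refine ⟨?_, fun e he => ?_, fun u hu => ?_, fun v hv => ?_⟩
  · rw [← List.length_pos_iff, ← Nat.cast_pos (α := ℝ), length_regl]
    positivity
  · simp only [regl, List.mem_flatMap, List.mem_map] at he
    obtain ⟨x, hx, t, -, t', -, rfl⟩ := he
    have h1 : x.2 < l.length := by simpa using List.snd_lt_of_mem_zipIdx hx
    exact ⟨(rotc_lt (by simpa using h1) t).trans_eq (by simp),
      (rotc_lt (by simpa using h1) t').trans_eq (by simp)⟩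
  · refine Nat.cast_injective (R := ℝ) ?_
    rw [countP_eq_sum, sum_regl]
    simp only [decide_eq_true_eq, sum_const, card_range, nsmul_eq_mul, ← mul_sum]
    rw [sum_comm]
    have h1 := fun t => sum_rotc (l.map fun e => e.1) t fun x => if x = u then (1 : ℝ) else 0
    simp only [List.length_map, sum_ite_eq', mem_range, show u < l.length from hu, if_true,
      sum_range] at h1
    simp only [h1]
    simp [sq]
  · refine Nat.cast_injective (R := ℝ) ?_
    rw [countP_eq_sum, sum_regl]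
    simp only [decide_eq_true_eq, sum_const, card_range, nsmul_eq_mul, ← mul_sum]
    rw [sum_comm]
    have h1 := fun t => sum_rotc (l.map fun e => e.2.1) t fun x => if x = v then (1 : ℝ) else 0
    simp only [List.length_map, sum_ite_eq', mem_range, show v < l.length from hv, if_true,
      sum_range] at h1
    simp only [h1]
    simp [sq]

variable [Group Γ] [Fintype Γ] [DecidableEq Γ]

/-- The gap problem on regular instances. -/
def RegP (Γ : Type) [Group Γ] [DecidableEq Γ] (c s : ℝ) : Promise (Inst Γ) where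
  yes I := (∃ D, WF I D D) ∧ ∃ F, c * I.2.2.length ≤ (cnt satG I.2.2 F : ℝ)
  no I := (∃ D, WF I D D) ∧ ∀ F, (cnt satG I.2.2 F : ℝ) ≤ s * I.2.2.length

theorem red_reg [Enc U] [EncInj U] [Enc V] [EncInj V] [Enc Γ] (c s : ℝ) :
    Red (Gap (satG (U := U) (V := V) (Γ := Γ)) c s) (RegP Γ c (4 * s)) := by
  have hm : PT ∅ fun l : List (U × V × Γ) => Un.mk l.length :=
    PT.mkUn PT.id.length (PBd.length (A := ∅) PT.id)
  have hr : PT ∅ fun l : List (U × V × Γ) => List.range l.length :=
    PT.range PT.id.length (PBd.length (A := ∅) PT.id)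
  have h1 : PT ∅ fun l : List (U × V × Γ) => l.map fun e => e.1 :=
    PT.map (f := fun _ (e : U × V × Γ) => e.1) PT.id PT.snd'.fst
  have h2 : PT ∅ fun l : List (U × V × Γ) => l.map fun e => e.2.1 :=
    PT.map (f := fun _ (e : U × V × Γ) => e.2.1) PT.id PT.snd'.snd.fst
  refine ⟨fun l => (⟨l.length⟩, ⟨l.length⟩, regl l), hm.pair (hm.pair (PT.flatMap PT.id.zipIdx
    (PT.flatMap (hr.comp PT.fst') (PT.map (hr.comp PT.fst'.fst)
      ((PT_rotc (h1.comp PT.fst'.fst.fst) PT.fst'.fst.snd.snd PT.fst'.snd).pair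
      ((PT_rotc (h2.comp PT.fst'.fst.fst) PT.fst'.fst.snd.snd PT.snd').pair
        PT.fst'.fst.snd.fst.snd.snd)))))),
    fun l hl => ⟨⟨_, wf_regl hl.1⟩, ?_⟩, fun l hl => ⟨⟨_, wf_regl hl.1⟩, fun H => ?_⟩⟩
  · obtain ⟨F, hF⟩ := hl.2
    refine ⟨(fun p => ((l.map fun e => e.1)[p]?).elim 1 F.1,
      fun p => ((l.map fun e => e.2.1)[p]?).elim 1 F.2), ?_⟩
    rw [cnt_eq_sum, sum_regl, length_regl]
    have e1 : ∀ (p : Fin l.length) (t t' : ℕ), satG (rotc (l.map fun e => e.1) p t,
        rotc (l.map fun e => e.2.1) p t', l[p].2.2)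
        (fun p => ((l.map fun e => e.1)[p]?).elim 1 F.1,
          fun p => ((l.map fun e => e.2.1)[p]?).elim 1 F.2) = satG l[p] F := by
      intro p t t'
      rw [Bool.eq_iff_iff, satG_iff, satG_iff]
      dsimp only
      rw [key_rotc (by simp), key_rotc (by simp)]
      simp
    simp only [e1, sum_const, card_range, nsmul_eq_mul, ← mul_sum, ← cnt_eq_fin]
    have h0 : (0 : ℝ) ≤ l.length * l.length := by positivity
    nlinarith [mul_le_mul_of_nonneg_left hF h0]
  · rw [cnt_eq_sum, sum_regl, length_regl]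
    have h3 : ∀ F : Option U → Γ, ∑ p : Fin l.length, ∑ t' ∈ range l.length,
        (if H.2 (rotc (l.map fun e => e.2.1) p t') = l[p].2.2 * F (l.map fun e => e.1)[(p : ℕ)]?
          then (1 : ℝ) else 0) ≤ 2 * l.length * (s * l.length) := by
      intro F
      have h5 : ∀ F' : Option V → Γ, ∑ p : Fin l.length,
          (if F' (l.map fun e => e.2.1)[(p : ℕ)]? = l[p].2.2 * F (l.map fun e => e.1)[(p : ℕ)]?
            then (1 : ℝ) else 0) ≤ s * l.length := by
        intro F'
        have h4 := hl.2 (fun u => F (some u), fun v => F' (some v))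
        rw [cnt_eq_fin] at h4
        refine le_trans (le_of_eq (sum_congr rfl fun p _ => if_congr ?_ rfl rfl)) h4
        rw [satG_iff]
        simp
      have h6 := rot_frac (l.map fun e => e.2.1) (List.length_map _)
        (fun (p : Fin l.length) (b : Γ) =>
          if b = l[p].2.2 * F (l.map fun e => e.1)[(p : ℕ)]? then (1 : ℝ) else 0)
        (fun _ _ => by split_ifs <;> norm_num) h5 H.2
      exact h6
    have h4 := rot_frac (l.map fun e => e.1) (List.length_map _)
      (fun (p : Fin l.length) (a : Γ) => ∑ t' ∈ range l.length,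
        if H.2 (rotc (l.map fun e => e.2.1) p t') = l[p].2.2 * a then (1 : ℝ) else 0)
      (fun _ _ => sum_nonneg fun _ _ => by split_ifs <;> norm_num) h3 H.1
    refine le_trans (le_of_eq (sum_congr rfl fun p _ => sum_congr rfl fun t _ =>
      sum_congr rfl fun t' _ => if_congr satG_iff rfl rfl)) (h4.trans (le_of_eq ?_))
    ring

end Reg

/-! ### The strong form -/

section Strong

variable {Γ : Type} [Group Γ] [Fintype Γ] [DecidableEq Γ]

/-- The equations at the left vertex `u`. -/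
def star (l : List (ℕ × ℕ × Γ)) (u : ℕ) : List (ℕ × ℕ × Γ) := l.filter fun e => e.1 = u

/-- All tuples of equations with a common left vertex. -/
noncomputable def tups (d : ℕ) (I : Inst Γ) : List (Fin d → ℕ × ℕ × Γ) :=
  (List.range I.1.v).flatMap fun u => tuples (Fin d) (0, 0, 1) (star I.2.2 u)

/-- The equations of a numbered tuple. -/
def tEdge {d : ℕ} (x : (Fin d → ℕ × ℕ × Γ) × ℕ) (j : Fin d) : ℕ × ℕ × Γ :=
  (x.2, (x.1 j).2.1, (x.1 j).2.2)

/-- The instance of the tuples. -/
noncomputable def strong (d : ℕ) (I : Inst Γ) : Inst Γ :=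
  (⟨(tups d I).length⟩, I.2.1, blow (Fin d) tEdge (tups d I).zipIdx)

omit [Group Γ] [Fintype Γ] [DecidableEq Γ] in
theorem length_star {I : Inst Γ} {D D' : ℕ} (h : WF I D D') {u : ℕ} (hu : u < I.1.v) :
    (star I.2.2 u).length = D := by
  rw [star, ← List.countP_eq_length_filter]
  exact h.left u hu

omit [Group Γ] [Fintype Γ] [DecidableEq Γ] in
theorem WF.pos {I : Inst Γ} {D D' : ℕ} (h : WF I D D') : 0 < D := by
  obtain ⟨e, he⟩ := List.exists_mem_of_ne_nil _ h.ne
  rw [← h.left e.1 (h.lt e he).1]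
  exact List.countP_pos_iff.2 ⟨e, he, by simp⟩

omit [Group Γ] [Fintype Γ] [DecidableEq Γ] in
theorem sum_star (l : List (ℕ × ℕ × Γ)) {n : ℕ} (h : ∀ e ∈ l, e.1 < n) (φ : ℕ × ℕ × Γ → ℝ) :
    ∑ u ∈ range n, ((star l u).map φ).sum = (l.map φ).sum := by
  induction l with
  | nil => simp [star]
  | cons e l ih =>
    have h1 : ∀ u, ((star (e :: l) u).map φ).sum =
        (if e.1 = u then φ e else 0) + ((star l u).map φ).sum := by
      intro u
      simp only [star, List.filter_cons, decide_eq_true_eq]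
      split_ifs <;> simp
    simp only [h1, sum_add_distrib, ih fun x hx => h x (List.mem_cons_of_mem _ hx), sum_ite_eq,
      mem_range, h e List.mem_cons_self, if_true, List.map_cons, List.sum_cons]

omit [Fintype Γ] [DecidableEq Γ] in
theorem sum_tups {I : Inst Γ} {D D' : ℕ} (h : WF I D D') (d : ℕ) (φ : (Fin d → ℕ × ℕ × Γ) → ℝ) :
    ((tups d I).map φ).sum = D ^ d * ∑ u ∈ range I.1.v,
      𝔼 x : Fin d → Fin (star I.2.2 u).length, φ fun j => (star I.2.2 u)[x j] := by
  rw [tups, sum_map_flatMap, sum_map_range, mul_sum]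
  refine sum_congr rfl fun u hu => ?_
  rw [sum_tuples, ← Fintype.card_mul_expect]
  simp [length_star h (mem_range.1 hu)]

omit [Fintype Γ] [DecidableEq Γ] in
theorem sum_tups_coord {I : Inst Γ} {D D' : ℕ} (h : WF I D D') {d : ℕ} (j : Fin d)
    (φ : ℕ × ℕ × Γ → ℝ) :
    ((tups d I).map fun τ => φ (τ j)).sum = D ^ d / D * (I.2.2.map φ).sum := by
  rw [sum_tups h, ← sum_star _ (fun e he => (h.lt e he).1), div_mul_eq_mul_div, mul_div_assoc,
    sum_div]
  congr 1
  refine sum_congr rfl fun u hu => ?_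
  have h1 := length_star h (mem_range.1 hu)
  have : Nonempty (Fin (star I.2.2 u).length) := ⟨⟨0, h1 ▸ h.pos⟩⟩
  rw [expect_coord (fun y : Fin (star I.2.2 u).length => φ (star I.2.2 u)[y]) j,
    Fintype.expect_eq_sum_div_card, sum_map_eq_sum_fin, Fintype.card_fin,
    show ((star I.2.2 u).length : ℝ) = D from congrArg Nat.cast h1]

omit [Fintype Γ] [DecidableEq Γ] in
theorem mem_tups {I : Inst Γ} {D D' : ℕ} (h : WF I D D') {d : ℕ} {τ : Fin d → ℕ × ℕ × Γ}
    (hτ : τ ∈ tups d I) : ∃ u, ∀ j, τ j ∈ I.2.2 ∧ (τ j).1 = u := by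
  simp only [tups, tuples, List.mem_flatMap, List.mem_map, List.mem_range] at hτ
  obtain ⟨u, hu, x, -, rfl⟩ := hτ
  refine ⟨u, fun j => ?_⟩
  have h1 : 0 < (star I.2.2 u).length := length_star h hu ▸ h.pos
  have h2 : (star I.2.2 u).getD (dig (star I.2.2 u).length x (Fintype.equivFin (Fin d) j))
      (0, 0, 1) ∈ star I.2.2 u := by
    rw [List.getD_eq_getElem _ _ (dig_lt h1 _ _)]
    exact List.getElem_mem _
  simpa [star] using h2

omit [Group Γ] [Fintype Γ] [DecidableEq Γ] in
theorem sum_blow {α β T : Type} [Fintype T] (φ : α → T → β) (l : List α) (ψ : β → ℝ) :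
    ((blow T φ l).map ψ).sum = (l.map fun e => ∑ t, ψ (φ e t)).sum := by
  rw [blow, sum_map_flatMap]
  simp only [List.map_map, sum_map_univ, Function.comp_apply]

omit [Fintype Γ] [DecidableEq Γ] in
theorem sum_strong (d : ℕ) (I : Inst Γ) (ψ : ℕ × ℕ × Γ → ℝ) :
    ((strong d I).2.2.map ψ).sum = ∑ i : Fin (tups d I).length, ∑ j,
      ψ (i, ((tups d I)[i] j).2.1, ((tups d I)[i] j).2.2) := by
  rw [strong, sum_blow, sum_map_zipIdx]
  rfl

omit [Fintype Γ] [DecidableEq Γ] in
theorem length_tups {I : Inst Γ} {D D' : ℕ} (h : WF I D D') {d : ℕ} (hd : 0 < d) :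
    ((tups d I).length : ℝ) = D ^ d / D * I.2.2.length := by
  have h1 := sum_tups_coord h (⟨0, hd⟩ : Fin d) fun _ => 1
  simpa only [sum_map_const, one_mul] using h1

omit [Fintype Γ] [DecidableEq Γ] in
theorem wf_strong {I : Inst Γ} {D D' : ℕ} (h : WF I D D') {d : ℕ} (hd : 0 < d) :
    ∃ D'', WF (strong d I) d D'' := by
  have : Nonempty (Fin d) := ⟨⟨0, hd⟩⟩
  have hD : (0 : ℝ) < D := by exact_mod_cast h.pos
  refine ⟨⌊(d : ℝ) * (D ^ d / D * D')⌋₊, blow_ne_nil _ ?_, fun e he => ?_, fun u hu => ?_,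
    fun v hv => ?_⟩
  · rw [← List.length_pos_iff, List.length_zipIdx, ← Nat.cast_pos (α := ℝ), length_tups h hd]
    have : (0 : ℝ) < I.2.2.length := by exact_mod_cast List.length_pos_iff.2 h.ne
    positivity
  · simp only [strong, blow, List.mem_flatMap, List.mem_map] at he
    obtain ⟨x, hx, j, -, rfl⟩ := he
    obtain ⟨u, hu⟩ := mem_tups h (List.fst_mem_of_mem_zipIdx hx)
    exact ⟨by simpa [strong, tEdge] using List.snd_lt_of_mem_zipIdx hx, (h.lt _ (hu j).1).2⟩
  · refine Nat.cast_injective (R := ℝ) ?_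
    rw [countP_eq_sum, sum_strong]
    simp only [decide_eq_true_eq, sum_const, card_univ, Fintype.card_fin, nsmul_eq_mul, ← mul_sum]
    rw [← sum_range fun i => if i = u then (1 : ℝ) else 0]
    simp only [sum_ite_eq', mem_range, show u < (tups d I).length from hu, if_true, mul_one]
  · rw [← Nat.floor_natCast (R := ℝ) (List.countP _ _)]
    congr 1
    rw [countP_eq_sum, sum_strong, sum_comm, ← h.right v hv, countP_eq_sum]
    simp only [fun j : Fin d => (sum_map_eq_sum_fin (tups d I)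
      fun τ => if decide ((τ j).2.1 = v) = true then (1 : ℝ) else 0).symm,
      fun j : Fin d => sum_tups_coord h j fun e => if decide (e.2.1 = v) = true then (1 : ℝ) else 0]
    simp

/-- The strong gap problem on biregular instances with left degree `d`. -/
def StrP (Γ : Type) [Group Γ] [DecidableEq Γ] (d : ℕ) (c s : ℝ) : Promise (Inst Γ) where
  yes I := (∃ D, WF I d D) ∧ ∃ F, c * I.1.v ≤
    ((range I.1.v).filter fun u => ∀ e ∈ I.2.2, e.1 = u → satG e F = true).card
  no I := (∃ D, WF I d D) ∧ ∀ F, (cnt satG I.2.2 F : ℝ) ≤ s * I.2.2.length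

omit [Group Γ] in
theorem agree_le {Y : Type} [Fintype Y] [Nonempty Y] {d : ℕ} (lab : Y → Γ) {a₀ : Γ}
    (h : ∀ a, (𝔼 y, if lab y = a then (1 : ℝ) else 0) ≤ 𝔼 y, if lab y = a₀ then (1 : ℝ) else 0) :
    (𝔼 x : Fin d → Y, ∑ j, ∑ j', if lab (x j) = lab (x j') then (1 : ℝ) else 0) ≤
      d + d ^ 2 * 𝔼 y, if lab y = a₀ then (1 : ℝ) else 0 := by
  have h0 : ∀ a, 0 ≤ 𝔼 y, if lab y = a then (1 : ℝ) else 0 := fun a =>
    expect_nonneg fun _ _ => by split_ifs <;> norm_num
  have h1 : ∀ j j' : Fin d, (𝔼 x : Fin d → Y, if lab (x j) = lab (x j') then (1 : ℝ) else 0) ≤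
      (if j = j' then 1 else 0) + 𝔼 y, if lab y = a₀ then (1 : ℝ) else 0 := by
    intro j j'
    split_ifs with e
    · subst e
      simp only [if_true, Fintype.expect_const]
      linarith [h0 a₀]
    · have e1 : ∀ x : Fin d → Y, (if lab (x j) = lab (x j') then (1 : ℝ) else 0) =
          ∑ a, (if lab (x j) = a then (1 : ℝ) else 0) * if lab (x j') = a then (1 : ℝ) else 0 := by
        intro x
        simp [eq_comm]
      simp only [e1, expect_sum_comm]
      simp only [fun a => expect_two e (fun y => if lab y = a then (1 : ℝ) else 0)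
        (fun y => if lab y = a then (1 : ℝ) else 0)]
      refine (sum_le_sum fun a _ => mul_le_mul_of_nonneg_left (h a) (h0 a)).trans ?_
      rw [← sum_mul, ← expect_sum_comm]
      simp
  simp only [expect_sum_comm]
  refine (sum_le_sum fun j _ => sum_le_sum fun j' _ => h1 j j').trans (le_of_eq ?_)
  simp only [sum_add_distrib, sum_ite_eq, mem_univ, if_true, sum_const, card_univ,
    Fintype.card_fin, nsmul_eq_mul]
  ring

omit [Fintype Γ] in
theorem strong_complete {d : ℕ} (hd : 0 < d) {ε : ℝ} {I : Inst Γ} {D D' : ℕ} (h : WF I D D')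
    {F : (ℕ → Γ) × (ℕ → Γ)} (hF : (1 - ε) * I.2.2.length ≤ (cnt satG I.2.2 F : ℝ)) :
    ∃ H, (1 - d * ε) * (strong d I).1.v ≤ ((range (strong d I).1.v).filter fun u =>
      ∀ e ∈ (strong d I).2.2, e.1 = u → satG e H = true).card := by
  have hD : (0 : ℝ) < D := by exact_mod_cast h.pos
  refine ⟨(fun i => ((tups d I)[i]?).elim 1 fun τ => F.1 (τ ⟨0, hd⟩).1, F.2), ?_⟩
  have h1 : ∀ i : Fin (tups d I).length, 1 - ∑ j, (if satG ((tups d I)[i] j) F = true then (0 : ℝ)
      else 1) ≤ if ∀ e ∈ (strong d I).2.2, e.1 = i → satG e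
        (fun i => ((tups d I)[i]?).elim 1 fun τ => F.1 (τ ⟨0, hd⟩).1, F.2) = true
        then (1 : ℝ) else 0 := by
    intro i
    have p0 : ∀ j, (0 : ℝ) ≤ if satG ((tups d I)[i] j) F = true then (0 : ℝ) else 1 :=
      fun j => by split_ifs <;> norm_num
    split_ifs with hi
    · linarith [sum_nonneg fun j (_ : j ∈ univ) => p0 j]
    · by_contra hc
      refine hi fun e he hei => ?_
      simp only [strong, blow, List.mem_flatMap, List.mem_map] at he
      obtain ⟨x, hx, j, -, rfl⟩ := he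
      have e1 : (tups d I)[x.2]? = some x.1 := List.mem_zipIdx_iff_getElem?.1 hx
      have e2 : (tups d I)[i] = x.1 := by
        have e3 : x.2 = i := hei
        rw [e3, List.getElem?_eq_getElem i.2] at e1
        exact Option.some.inj e1
      obtain ⟨u, hu⟩ := mem_tups h (List.fst_mem_of_mem_zipIdx hx)
      have e4 : satG (x.1 j) F = true := by
        by_contra h4
        have h5 := single_le_sum (fun j _ => p0 j) (mem_univ j)
        rw [e2] at h5 hc
        rw [if_neg h4] at h5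
        exact hc (by linarith)
      rw [satG_iff] at e4 ⊢
      simp only [tEdge, e1, Option.elim_some, (hu _).2]
      rw [e4, (hu j).2]
  have h2 := sum_le_sum fun i (_ : i ∈ univ) => h1 i
  rw [sum_sub_distrib, sum_comm] at h2
  simp only [fun j : Fin d => (sum_map_eq_sum_fin (tups d I)
    fun τ => if satG (τ j) F = true then (0 : ℝ) else 1).symm,
    fun j : Fin d => sum_tups_coord h j fun e => if satG e F = true then (0 : ℝ) else 1,
    ← viol_eq_sum, sum_const, card_univ, Fintype.card_fin, nsmul_eq_mul, mul_one] at h2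
  rw [card_filter, Nat.cast_sum, sum_range]
  simp only [Nat.cast_ite, Nat.cast_one, Nat.cast_zero]
  refine le_trans ?_ h2
  have h3 : (cnt satG I.2.2 F : ℝ) + viol satG I.2.2 F = I.2.2.length := by
    exact_mod_cast cnt_add_viol satG I.2.2 F
  have h4 : (0 : ℝ) ≤ d * (D ^ d / D) := by positivity
  have h5 := mul_le_mul_of_nonneg_left
    (show (viol satG I.2.2 F : ℝ) ≤ ε * I.2.2.length by linarith) h4
  change (1 - d * ε) * ((tups d I).length : ℝ) ≤ _
  rw [length_tups h hd]
  linarith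
omit [Group Γ] [Fintype Γ] in
theorem count_le_agree {d : ℕ} (hd : 0 < d) {lam : ℝ} (hl : 0 < lam) (b : Fin d → Γ) (a : Γ) :
    ∑ j, (if b j = a then (1 : ℝ) else 0) ≤
      (∑ j, ∑ j', if b j = b j' then (1 : ℝ) else 0) / (2 * lam * d) + lam * d / 2 := by
  have hd0 : (0 : ℝ) < d := by exact_mod_cast hd
  have e2 : (∑ j, if b j = a then (1 : ℝ) else 0) ^ 2 ≤
      ∑ j, ∑ j', if b j = b j' then (1 : ℝ) else 0 := by
    rw [sq, sum_mul_sum]
    refine sum_le_sum fun j _ => sum_le_sum fun j' _ => ?_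
    split_ifs <;> simp_all
  refine le_trans ?_ (add_le_add (div_le_div_of_nonneg_right e2 (by positivity)) le_rfl)
  generalize (∑ j, if b j = a then (1 : ℝ) else 0) = z
  have e3 : z ^ 2 / (2 * lam * d) + lam * d / 2 - z = (z - lam * d) ^ 2 / (2 * lam * d) := by
    field_simp
    ring
  have e4 : 0 ≤ (z - lam * d) ^ 2 / (2 * lam * d) := by positivity
  linarith

theorem strong_sound {d : ℕ} (hd : 0 < d) {lam : ℝ} (hl : 0 < lam) {s : ℝ} {I : Inst Γ}
    {D D' : ℕ} (h : WF I D D') (hI : ∀ F, (cnt satG I.2.2 F : ℝ) ≤ s * I.2.2.length)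
    (H : (ℕ → Γ) × (ℕ → Γ)) : (cnt satG (strong d I).2.2 H : ℝ) ≤
      ((1 / d + s) / (2 * lam) + lam / 2) * (strong d I).2.2.length := by
  have hd0 : (0 : ℝ) < d := by exact_mod_cast hd
  have hD : (0 : ℝ) < D := by exact_mod_cast h.pos
  obtain ⟨lab, hlab⟩ : ∃ lab : ℕ × ℕ × Γ → Γ, ∀ e, lab e = e.2.2⁻¹ * H.2 e.2.1 :=
    ⟨_, fun _ => rfl⟩
  have hmax : ∀ u, ∃ a₀, ∀ a, (𝔼 y : Fin (star I.2.2 u).length,
      if lab (star I.2.2 u)[y] = a then (1 : ℝ) else 0) ≤ 𝔼 y : Fin (star I.2.2 u).length,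
      if lab (star I.2.2 u)[y] = a₀ then (1 : ℝ) else 0 := fun u => by
    obtain ⟨a₀, -, h0⟩ := exists_max_image univ (fun a => 𝔼 y : Fin (star I.2.2 u).length,
      if lab (star I.2.2 u)[y] = a then (1 : ℝ) else 0) univ_nonempty
    exact ⟨a₀, fun a => h0 a (mem_univ a)⟩
  choose F hF using hmax
  have h1 : D * ∑ u ∈ range I.1.v, (𝔼 y : Fin (star I.2.2 u).length,
      if lab (star I.2.2 u)[y] = F u then (1 : ℝ) else 0) ≤ s * I.2.2.length := by
    refine le_trans (le_of_eq ?_) (hI (F, H.2))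
    rw [cnt_eq_sum, ← sum_star _ (fun e he => (h.lt e he).1), mul_sum]
    refine sum_congr rfl fun u hu => ?_
    rw [sum_map_eq_sum_fin, ← Fintype.card_mul_expect, Fintype.card_fin,
      show ((star I.2.2 u).length : ℝ) = D from congrArg Nat.cast (length_star h (mem_range.1 hu))]
    congr 1
    refine expect_congr rfl fun y _ => if_congr ?_ rfl rfl
    have e1 : (star I.2.2 u)[y].1 = u := by
      simpa using (List.mem_filter.1 (List.getElem_mem (l := star I.2.2 u) y.2)).2
    rw [satG_iff, hlab, inv_mul_eq_iff_eq_mul, e1]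
  have h2 : (I.1.v : ℝ) * D = I.2.2.length := by
    have e1 := sum_star I.2.2 (fun e he => (h.lt e he).1) fun _ => 1
    simp only [sum_map_const, one_mul] at e1
    rw [← e1, sum_congr rfl fun u hu => congrArg Nat.cast (length_star h (mem_range.1 hu))]
    simp
  have h3 : ((tups d I).map fun τ => ∑ j, ∑ j', if lab (τ j) = lab (τ j') then (1 : ℝ) else 0).sum
      ≤ (d + d ^ 2 * s) * (tups d I).length := by
    rw [sum_tups h, length_tups h hd]
    refine (mul_le_mul_of_nonneg_left (sum_le_sum fun u hu => ?_) (by positivity)).trans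
      (?_ : D ^ d * ∑ u ∈ range I.1.v, (d + d ^ 2 * 𝔼 y : Fin (star I.2.2 u).length,
        if lab (star I.2.2 u)[y] = F u then (1 : ℝ) else 0) ≤ _)
    · have : Nonempty (Fin (star I.2.2 u).length) :=
        ⟨⟨0, length_star h (mem_range.1 hu) ▸ h.pos⟩⟩
      exact agree_le (fun y : Fin (star I.2.2 u).length => lab (star I.2.2 u)[y]) (hF u)
    · rw [sum_add_distrib, ← mul_sum, sum_const, card_range, nsmul_eq_mul]
      generalize (∑ u ∈ range I.1.v, (𝔼 y : Fin (star I.2.2 u).length,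
        if lab (star I.2.2 u)[y] = F u then (1 : ℝ) else 0)) = z at h1 ⊢
      have e1 : (D : ℝ) ^ d * (I.1.v * d + d ^ 2 * z) =
          D ^ d / D * (d * (I.1.v * D) + d ^ 2 * (D * z)) := by field_simp
      have e2 : (0 : ℝ) ≤ D ^ d / D * d ^ 2 := by positivity
      rw [e1, h2]
      nlinarith [mul_le_mul_of_nonneg_left h1 e2]
  have h4 : ∀ i : Fin (tups d I).length, ∑ j, (if satG ((i : ℕ), ((tups d I)[i] j).2.1,
      ((tups d I)[i] j).2.2) H = true then (1 : ℝ) else 0) ≤ (∑ j, ∑ j',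
        if lab ((tups d I)[i] j) = lab ((tups d I)[i] j') then (1 : ℝ) else 0) / (2 * lam * d) +
        lam * d / 2 := fun i =>
    le_trans (le_of_eq (sum_congr rfl fun j _ =>
      if_congr (by rw [satG_iff, hlab, inv_mul_eq_iff_eq_mul]) rfl rfl))
      (count_le_agree hd hl (fun j => lab ((tups d I)[i] j)) (H.1 i))
  rw [cnt_eq_sum, sum_strong]
  refine (sum_le_sum fun i _ => h4 i).trans ?_
  rw [sum_add_distrib, ← sum_div, ← sum_map_eq_sum_fin (tups d I)
    (fun τ => ∑ j, ∑ j', if lab (τ j) = lab (τ j') then (1 : ℝ) else 0)]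
  refine (add_le_add (div_le_div_of_nonneg_right h3 (by positivity)) le_rfl).trans (le_of_eq ?_)
  simp only [strong, length_blow, List.length_zipIdx, Fintype.card_fin, sum_const, card_univ,
    nsmul_eq_mul]
  push_cast
  field_simp

theorem red_strong [Enc Γ] {d : ℕ} (hd : 0 < d) {lam : ℝ} (hl : 0 < lam) (ε s : ℝ) :
    Red (RegP Γ (1 - ε) s) (StrP Γ d (1 - d * ε) ((1 / d + s) / (2 * lam) + lam / 2)) := by
  have ht : PT ∅ (tups (Γ := Γ) d) := PT.flatMap (PT.range PT.fst'.unVal (PBd.unVal (A := ∅) PT.fst'))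
    ((PT_tuples _).comp (PT.filter (f := fun (p : Inst Γ × ℕ) (e : ℕ × ℕ × Γ) => decide (e.1 = p.2))
      PT.fst'.snd.snd (PT.eqNat PT.snd'.fst PT.fst'.snd)))
  exact ⟨strong d, (PT.mkUn ht.length (PBd.length ht)).pair (PT.snd'.fst.pair
    ((PT_blow fun j => PT.snd'.pair ((PT.funAt PT.fst' j).snd.fst.pair
      (PT.funAt PT.fst' j).snd.snd)).comp ht.zipIdx)),
    fun _ ⟨⟨_, h⟩, _, hF⟩ => ⟨wf_strong h hd, strong_complete hd h hF⟩,
    fun _ ⟨⟨_, h⟩, hI⟩ => ⟨wf_strong h hd, strong_sound hd hl h hI⟩⟩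

end Strong

end Vale.Agent.N325
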