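import Vale.Agent.N325.Main
import Vale.Agent.P342.LongCode
import Mathlib.Combinatorics.SimpleGraph.VertexCover

/-!
The reduction of Khot and Regev from strongly satisfiable unique games to independent sets.
-/

namespace Vale.Agent.N325

open Finset hiding dens
open Vale.Agent.Lib.PCP Vale.Agent.Lib.PolyTime Vale.Agent.P325 Vale.Agent.P342.LCode
open scoped BigOperators

/-! ### Cross intersecting families -/

section Cross

variable {B Ω : Type} [Fintype B] [DecidableEq B] [Fintype Ω]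

/-- Words which contain the ones of a word of `I`, with the larger set of ones on `R`. -/
def upS (P₁ P : Ω → Prop) (I : (B → Ω) → Prop) (R : B → Bool) (z : B → Ω) : Prop :=
  ∃ y, I y ∧ ∀ b, P₁ (y b) → P₁ (z b) ∨ (R b = true ∧ P (z b))

theorem sens_upS {P₁ P : Ω → Prop} {ω : Ω} (h1 : P ω) (h2 : ¬ P₁ ω) (I : (B → Ω) → Prop)
    (R : B → Bool) (b : B) : sens (upS P₁ P I R) b ≤ Fintype.card Ω *
      (dens (upS P₁ P I (Function.update R b true)) -
        dens (upS P₁ P I (Function.update R b false))) := by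
  have : Nonempty Ω := ⟨ω⟩
  unfold sens dens
  rw [← expect_sub_distrib, ← expect_update (fun z =>
    ind (upS P₁ P I (Function.update R b true) z) -
      ind (upS P₁ P I (Function.update R b false) z)) b, mul_expect]
  refine expect_le_expect fun z _ => ?_
  rw [Fintype.card_mul_expect]
  obtain ⟨Y, hY⟩ : ∃ Y : (B → Ω) → Prop, ∀ y, Y y ↔ I y ∧
      ∀ b', b' ≠ b → P₁ (y b') → P₁ (z b') ∨ (R b' = true ∧ P (z b')) := ⟨_, fun _ => Iff.rfl⟩
  have key : ∀ c q, upS P₁ P I (Function.update R b c) (Function.update z b q) ↔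
      ∃ y, Y y ∧ (P₁ (y b) → P₁ q ∨ (c = true ∧ P q)) := by
    intro c q
    constructor
    · rintro ⟨y, hy, h⟩
      exact ⟨y, (hY y).2 ⟨hy, fun b' hb' => by simpa [hb'] using h b'⟩, by simpa using h b⟩
    · rintro ⟨y, hy, h⟩
      refine ⟨y, ((hY y).1 hy).1, fun b' => ?_⟩
      by_cases hb' : b' = b
      · simpa [hb'] using h
      · simpa [hb'] using ((hY y).1 hy).2 b' hb'
  have hnn : ∀ q ∈ (univ : Finset Ω),
      0 ≤ ind (upS P₁ P I (Function.update R b true) (Function.update z b q)) -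
        ind (upS P₁ P I (Function.update R b false) (Function.update z b q)) := fun q _ =>
    sub_nonneg.2 (ind_mono fun h => by
      obtain ⟨y, hy, h'⟩ := (key _ _).1 h
      exact (key _ _).2 ⟨y, hy, fun a => Or.inl (by simpa using h' a)⟩)
  by_cases h : ∃ q, ¬ (upS P₁ P I R (Function.update z b q) ↔ upS P₁ P I R z)
  · rw [ind_pos h]
    obtain ⟨q, hq⟩ := h
    have k1 := key (R b) q
    have k2 := key (R b) (z b)
    rw [Function.update_eq_self] at k1 k2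
    rw [Function.update_eq_self] at k2
    rw [k1, k2] at hq
    obtain ⟨y, hy⟩ : ∃ y, Y y := by
      by_contra h
      push Not at h
      simp [h] at hq
    have h3 : ∀ y, Y y → P₁ (y b) := by
      intro y' hy'
      by_contra h
      exact hq ⟨fun _ => ⟨y', hy', fun a => absurd a h⟩, fun _ => ⟨y', hy', fun a => absurd a h⟩⟩
    refine le_trans ?_ (single_le_sum hnn (mem_univ ω))
    rw [ind_pos ((key _ _).2 ⟨y, hy, fun _ => Or.inr ⟨rfl, h1⟩⟩), ind_neg fun h => by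
      obtain ⟨y', hy', h'⟩ := (key _ _).1 h
      simpa [h2] using h' (h3 y' hy')]
    norm_num
  · rw [ind_neg h]
    exact sum_nonneg hnn

theorem cross {P₁ P : Ω → Prop} (hP : ∀ ω, P₁ ω → P ω) (φ : Ω ≃ Ω) (hφ : ∀ ω, P ω → ¬ P (φ ω))
    {ω₀ : Ω} (h0 : ¬ P ω₀) (σ : B ≃ B) {m : ℕ} {I I' : (B → Ω) → Prop} {R R' : B → Bool}
    {J J' T T' : Finset B} {z₀ z₀' : B → Ω} (hJ : J.card ≤ m) (hJ' : J'.card ≤ m) (hT : J ⊆ T)
    (hT' : J' ⊆ T')
    (h : ∀ N : Finset B, N.card ≤ 2 * m → Disjoint N T →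
      3 / 4 ≤ 𝔼 z, ind (∀ a, (∀ b, b ∉ N → a b = J.piecewise z₀ z b) → upS P₁ P I R a))
    (h' : ∀ N : Finset B, N.card ≤ 2 * m → Disjoint N T' →
      3 / 4 ≤ 𝔼 z, ind (∀ a, (∀ b, b ∉ N → a b = J'.piecewise z₀' z b) → upS P₁ P I' R' a))
    (hI : ∀ y y', I y → I' y' → ∃ b, P₁ (y b) ∧ P₁ (y' (σ b))) : ∃ b ∈ T, σ b ∈ T' := by
  have : Nonempty Ω := ⟨ω₀⟩
  by_contra hc
  push Not at hc
  have g := h (J'.map σ.symm.toEmbedding) (by rw [card_map]; omega) (disjoint_left.2 fun b hb hb' =>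
    hc b hb' (hT' (by simpa using hb)))
  have g' := h' (J.map σ.toEmbedding) (by rw [card_map]; omega) (disjoint_left.2 fun b hb hb' =>
    hc (σ.symm b) (hT (by simpa using hb)) (by simpa using hb'))
  rw [← Fintype.expect_equiv (σ.arrowCongr φ) _ _ fun _ => rfl] at g'
  obtain ⟨s, a, a'⟩ : ∃ s : B → Ω,
      (∀ a, (∀ b, b ∉ J'.map σ.symm.toEmbedding → a b = J.piecewise z₀ s b) → upS P₁ P I R a) ∧
      (∀ a, (∀ b, b ∉ J.map σ.toEmbedding → a b = J'.piecewise z₀' (σ.arrowCongr φ s) b) →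
        upS P₁ P I' R' a) := by
    by_contra hs
    have h1 := add_le_add g g'
    rw [← expect_add_distrib] at h1
    refine absurd (h1.trans (expect_le (a := 1) univ_nonempty fun s _ => ?_)) (by norm_num)
    rcases not_and_or.1 (not_exists.1 hs s) with h2 | h2 <;> rw [ind_neg h2] <;>
      simp [ind_le_one]
  obtain ⟨y, y1, y2⟩ := a (fun b => if σ b ∈ J' then ω₀ else J.piecewise z₀ s b) fun b hb =>
    if_neg (by simpa using hb)
  obtain ⟨y', y1', y2'⟩ := a' (fun b => if σ.symm b ∈ J then ω₀ else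
    J'.piecewise z₀' (σ.arrowCongr φ s) b) fun b hb => if_neg (by simpa using hb)
  obtain ⟨b, c1, c2⟩ := hI y y' y1 y1'
  have e1 := (y2 b c1).elim (hP _) And.right
  have e2 := (y2' _ c2).elim (hP _) And.right
  by_cases b1 : σ b ∈ J'
  · exact h0 (by simpa [b1] using e1)
  · by_cases b2 : b ∈ J
    · exact h0 (by simpa [b2] using e2)
    · exact hφ (s b) (by simpa [b1, b2] using e1) (by simpa [b1, b2] using e2)

end Cross

/-- The ones: vectors with first coordinate one, except the all ones vector. -/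
def One {r : ℕ} (ω : Vec (r + 1)) : Prop := ω 0 = 1 ∧ ω ≠ 1

instance {r : ℕ} : DecidablePred (One (r := r)) := fun _ => inferInstanceAs (Decidable (_ ∧ _))

theorem expect_one (r : ℕ) :
    𝔼 ω : Vec (r + 1), (if One ω then (1 : ℝ) else 0) = 1 / 2 - 1 / 2 ^ (r + 1) := by
  have h1 : ∀ ω : Vec (r + 1), (if One ω then (1 : ℝ) else 0) =
      (if ω 0 = 1 then (1 : ℝ) else 0) - if ω = 1 then (1 : ℝ) else 0 := by
    intro ω
    by_cases h : ω = 1
    · simp [One, h]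
    · simp [One, h]
  simp only [h1, expect_sub_distrib]
  rw [expect_coord (fun a : ZMod 2 => if a = 1 then (1 : ℝ) else 0) (0 : Fin (r + 1))]
  simp [Vec]

theorem long_lists_gen {Ω κ : Type} [Fintype Ω] [Fintype κ] [DecidableEq κ]
    (e : Ω ≃ (κ → ZMod 2)) {P₁ P : Ω → Prop} (hP : ∀ ω, P₁ ω → P ω) (φ : Ω ≃ Ω)
    (hφ : ∀ ω, P ω → ¬ P (φ ω)) {ω₀ ω₁ : Ω} (h0 : ¬ P ω₀) (h1 : P ω₁) (h2 : ¬ P₁ ω₁) {ε : ℝ}
    (hε : 0 < ε) : ∃ t : ℕ, ∀ (B : Type) [Fintype B] [DecidableEq B],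
    ∃ T : ((B → Ω) → Prop) → Finset B, (∀ I, (T I).card ≤ t) ∧
      ∀ (σ : B ≃ B) (I I' : (B → Ω) → Prop), ε ≤ dens I → ε ≤ dens I' →
        (∀ y y', I y → I' y' → ∃ b, P₁ (y b) ∧ P₁ (y' (σ b))) → ∃ b ∈ T I, σ b ∈ T I' := by
  have : Nonempty Ω := ⟨ω₀⟩
  obtain ⟨m, t, h⟩ := exists_robust_core Ω e hε (K := Fintype.card Ω)
    (by exact_mod_cast Fintype.card_pos)
  refine ⟨t, fun B _ _ => ?_⟩
  have h1 : ∀ I : (B → Ω) → Prop, ∃ T : Finset B, T.card ≤ t ∧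
      (ε ≤ dens I → ∃ (R : B → Bool) (J : Finset B) (z₀ : B → Ω), J.card ≤ m ∧ J ⊆ T ∧
        ∀ N : Finset B, N.card ≤ 2 * m → Disjoint N T → 3 / 4 ≤ 𝔼 z, ind (∀ a,
          (∀ b, b ∉ N → a b = J.piecewise z₀ z b) → upS P₁ P I R a)) := by
    intro I
    by_cases hI : ε ≤ dens I
    · obtain ⟨R, hR⟩ := russo (fun R => dens (upS P₁ P I R))
        (fun _ => dens_nonneg _) fun _ => dens_le_one _
      obtain ⟨J, T, z₀, a1, a2, a3, a4⟩ := h B (upS P₁ P I R)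
        (hI.trans (expect_le_expect fun z _ => ind_mono fun hz => ⟨z, hz, fun _ => Or.inl⟩)) (by
          refine (sum_le_sum fun b _ => sens_upS h1 h2 I R b).trans ?_
          rw [← mul_sum]
          exact mul_le_of_le_one_right (Nat.cast_nonneg _) hR)
      exact ⟨T, a3, fun _ => ⟨R, J, z₀, a1, a2, a4⟩⟩
    · exact ⟨∅, Nat.zero_le _, fun h => absurd h hI⟩
  choose T hT hT' using h1
  refine ⟨T, hT, fun σ I I' hI hI' hII => ?_⟩
  obtain ⟨R, J, z₀, a1, a2, a3⟩ := hT' I hI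
  obtain ⟨R', J', z₀', a1', a2', a3'⟩ := hT' I' hI'
  exact cross hP φ hφ h0 σ a1 a1' a2 a2' a3 a3' hII

/-- The long code lemma: dense cross intersecting families have intersecting short lists. -/
theorem long_lists (r : ℕ) {ε : ℝ} (hε : 0 < ε) : ∃ t : ℕ, ∀ (B : Type) [Fintype B] [DecidableEq B],
    ∃ T : ((B → Vec (r + 1)) → Prop) → Finset B, (∀ I, (T I).card ≤ t) ∧
      ∀ (σ : B ≃ B) (I I' : (B → Vec (r + 1)) → Prop), ε ≤ dens I → ε ≤ dens I' →
        (∀ y y', I y → I' y' → ∃ b, One (y b) ∧ One (y' (σ b))) → ∃ b ∈ T I, σ b ∈ T I' :=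
  long_lists_gen (Equiv.refl _) (P₁ := One) (P := fun ω : Vec (r + 1) => ω 0 = 1)
    (fun _ h => h.1) (Equiv.addRight 1) (fun ω h => by
      simp only [Equiv.coe_addRight, Pi.add_apply, h, Pi.one_apply]
      exact (by decide : ¬ (1 + 1 : ZMod 2) = 1)) (ω₀ := 0) (ω₁ := 1) (by simp) rfl (fun h => h.2 rfl) hε

/-! ### The graph -/

section Graph

variable {Γ Ω : Type} [Group Γ] [Fintype Γ] [DecidableEq Γ] [Fintype Ω] [Nonempty Ω]

/-- The point of the long code with a given number. -/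
noncomputable def pt (Γ Ω : Type) [Fintype Γ] [DecidableEq Γ] [Fintype Ω] [Nonempty Ω] (i : ℕ) :
    Γ → Ω :=
  (Fintype.equivFin (Γ → Ω)).symm ⟨i % Fintype.card (Γ → Ω), Nat.mod_lt _ Fintype.card_pos⟩

omit [Group Γ] in
theorem sum_fin_mul (n : ℕ) (φ : ℕ → (Γ → Ω) → ℝ) :
    ∑ i : Fin (n * Fintype.card (Γ → Ω)), φ (i / Fintype.card (Γ → Ω)) (pt Γ Ω i) =
      Fintype.card (Γ → Ω) * ∑ u ∈ range n, 𝔼 f, φ u f := by
  rw [mul_sum, sum_range]
  simp only [Fintype.card_mul_expect]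
  rw [← Fintype.sum_prod_type']
  exact Fintype.sum_equiv (finProdFinEquiv.symm.trans
    ((Equiv.refl _).prodCongr (Fintype.equivFin (Γ → Ω)).symm)) _ _ fun _ => rfl

variable (P₁ : Ω → Prop) [DecidablePred P₁]

/-- Two points have no common one after the shifts. -/
def clash (f f' : Γ → Ω) (γ γ' : Γ) : Bool :=
  decide (∀ b, ¬ (P₁ (f b) ∧ P₁ (f' (γ'⁻¹ * (γ * b)))))

/-- Two vertices are in conflict. -/
noncomputable def conf (l : List (ℕ × ℕ × Γ)) (i j : ℕ) : Bool :=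
  l.any fun e => l.any fun e' => decide (e.1 = i / Fintype.card (Γ → Ω)) &&
    decide (e'.1 = j / Fintype.card (Γ → Ω)) && decide (e.2.1 = e'.2.1) &&
    clash P₁ (pt Γ Ω i) (pt Γ Ω j) e.2.2 e'.2.2

theorem conf_iff {l : List (ℕ × ℕ × Γ)} {i j : ℕ} : conf P₁ l i j = true ↔ ∃ e ∈ l, ∃ e' ∈ l,
    e.1 = i / Fintype.card (Γ → Ω) ∧ e'.1 = j / Fintype.card (Γ → Ω) ∧ e.2.1 = e'.2.1 ∧
      ∀ b, ¬ (P₁ (pt Γ Ω i b) ∧ P₁ (pt Γ Ω j (e'.2.2⁻¹ * (e.2.2 * b)))) := by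
  simp only [conf, clash, List.any_eq_true, Bool.and_eq_true, decide_eq_true_eq, and_assoc]

/-- Adjacency; vertices in conflict with themselves are adjacent to all others. -/
noncomputable def adjB (l : List (ℕ × ℕ × Γ)) (i j : ℕ) : Bool :=
  !decide (i = j) && (conf P₁ l i j || conf P₁ l j i || conf P₁ l i i || conf P₁ l j j)

theorem adjB_iff {l : List (ℕ × ℕ × Γ)} {i j : ℕ} : adjB P₁ l i j = true ↔ i ≠ j ∧
    (conf P₁ l i j = true ∨ conf P₁ l j i = true ∨ conf P₁ l i i = true ∨ conf P₁ l j j = true) := by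
  simp [adjB, or_assoc]

/-- The graph. -/
noncomputable def krG (I : Inst Γ) : Σ n : ℕ, SimpleGraph (Fin n) :=
  ⟨I.1.v * Fintype.card (Γ → Ω),
    { Adj := fun u v => adjB P₁ I.2.2 u v = true
      symm := ⟨fun u v h => by
        obtain ⟨h1, h2⟩ := (adjB_iff P₁).1 h
        exact (adjB_iff P₁).2 ⟨h1.symm, by tauto⟩⟩
      loopless := ⟨fun u h => ((adjB_iff P₁).1 h).1 rfl⟩ }⟩

theorem kr_complete (I : Inst Γ) {c : ℝ} {F : (ℕ → Γ) × (ℕ → Γ)} (hF : c * I.1.v ≤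
    ((range I.1.v).filter fun u => ∀ e ∈ I.2.2, e.1 = u → satG e F = true).card) :
    c * (𝔼 ω, if P₁ ω then (1 : ℝ) else 0) * (krG P₁ I).1 ≤ (krG P₁ I).2.indepNum := by
  obtain ⟨good, hg⟩ : ∃ good : ℕ → Prop, ∀ u,
    good u ↔ ∀ e ∈ I.2.2, e.1 = u → satG e F = true := ⟨_, fun _ => Iff.rfl⟩
  classical
  obtain ⟨S, hS⟩ : ∃ S : Finset (Fin (I.1.v * Fintype.card (Γ → Ω))),
    S = univ.filter fun i : Fin (I.1.v * Fintype.card (Γ → Ω)) => good (i / Fintype.card (Γ → Ω)) ∧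
      P₁ (pt Γ Ω i (F.1 (i / Fintype.card (Γ → Ω)))) := ⟨_, rfl⟩
  have h1 : ∀ i ∈ S, ∀ j ∈ S, ¬ conf P₁ I.2.2 i j = true := by
    intro i hi j hj h
    rw [hS, mem_filter] at hi hj
    obtain ⟨e, he, e', he', a1, a2, a3, a4⟩ := (conf_iff P₁).1 h
    have b1 := satG_iff.1 ((hg _).1 hi.2.1 e he a1)
    have b2 := satG_iff.1 ((hg _).1 hj.2.1 e' he' a2)
    refine a4 _ ⟨hi.2.2, ?_⟩
    rw [← a1, ← b1, a3, b2, inv_mul_cancel_left, a2]
    exact hj.2.2
  have h2 : (krG P₁ I).2.IsIndepSet (S : Set (Fin (I.1.v * Fintype.card (Γ → Ω)))) := by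
    intro i hi j hj _ h
    rcases ((adjB_iff P₁).1 h).2 with h | h | h | h
    exacts [h1 i hi j hj h, h1 j hj i hi h, h1 i hi i hi h, h1 j hj j hj h]
  refine le_trans ?_ (Nat.cast_le.2 h2.card_le_indepNum)
  have h3 : ∀ u, (𝔼 f : Γ → Ω, if good u ∧ P₁ (f (F.1 u)) then (1 : ℝ) else 0) =
      (if good u then (1 : ℝ) else 0) * 𝔼 ω, if P₁ ω then (1 : ℝ) else 0 := by
    intro u
    rw [← expect_coord (fun ω => if P₁ ω then (1 : ℝ) else 0) (F.1 u)]
    by_cases h : good u <;> simp [h]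
  have h4 := sum_fin_mul (Γ := Γ) (Ω := Ω) I.1.v
    fun u f => if good u ∧ P₁ (f (F.1 u)) then (1 : ℝ) else 0
  simp only [h3, ← sum_mul, sum_boole] at h4
  rw [← hS] at h4
  have h5 : ((range I.1.v).filter fun u => ∀ e ∈ I.2.2, e.1 = u → satG e F = true) =
      (range I.1.v).filter good := filter_congr fun u _ => (hg u).symm
  have h6 : (0 : ℝ) ≤ Fintype.card (Γ → Ω) * 𝔼 ω, if P₁ ω then (1 : ℝ) else 0 :=
    mul_nonneg (Nat.cast_nonneg _) (expect_nonneg fun _ _ => by split_ifs <;> norm_num)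
  rw [h5] at hF
  refine le_trans ?_ h4.ge
  simp only [krG]
  push_cast
  nlinarith [mul_le_mul_of_nonneg_left hF h6]

theorem kr_sound {I : Inst Γ} {d D : ℕ} (h : WF I d D) {s δ : ℝ} (hδ : 0 < δ)
    (hI : ∀ F, (cnt satG I.2.2 F : ℝ) ≤ s * I.2.2.length) (hQ : 1 ≤ δ * Fintype.card (Γ → Ω))
    {t : ℕ} {T : ((Γ → Ω) → Prop) → Finset Γ} (hT : ∀ I, (T I).card ≤ t)
    (hT' : ∀ (σ : Γ ≃ Γ) (I I' : (Γ → Ω) → Prop), δ / 2 ≤ dens I → δ / 2 ≤ dens I' →
      (∀ y y', I y → I' y' → ∃ b, P₁ (y b) ∧ P₁ (y' (σ b))) → ∃ b ∈ T I, σ b ∈ T I')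
    (hs : t * (t * s) ≤ δ / 2) : ((krG P₁ I).2.indepNum : ℝ) ≤ δ * (krG P₁ I).1 := by
  classical
  obtain ⟨J, hJ, hJc⟩ := (krG P₁ I).2.exists_isNIndepSet_indepNum
  rw [← hJc]
  have hn : 1 ≤ I.1.v := by
    obtain ⟨e, he⟩ := List.exists_mem_of_ne_nil _ h.ne
    exact Nat.one_le_of_lt (h.lt e he).1
  have hn' : (1 : ℝ) ≤ I.1.v := by exact_mod_cast hn
  have hQ0 : (0 : ℝ) < Fintype.card (Γ → Ω) := by exact_mod_cast Fintype.card_pos
  have hsz : ((krG P₁ I).1 : ℝ) = I.1.v * Fintype.card (Γ → Ω) := by simp [krG]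
  rw [hsz]
  by_cases h1 : J.card ≤ 1
  · have : (J.card : ℝ) ≤ 1 := by exact_mod_cast h1
    nlinarith
  have h2 : ∀ i ∈ J, ∀ j ∈ J, ¬ conf P₁ I.2.2 i j = true := by
    intro i hi j hj hc
    by_cases e : i = j
    · subst e
      obtain ⟨j, hj, e⟩ := exists_mem_ne (not_le.1 h1) i
      exact hJ hi hj e.symm ((adjB_iff P₁).2 ⟨fun a => e (Fin.ext a).symm, Or.inr (Or.inr (Or.inl hc))⟩)
    · exact hJ hi hj e ((adjB_iff P₁).2 ⟨fun a => e (Fin.ext a), Or.inl hc⟩)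
  obtain ⟨A, hA⟩ : ∃ A : ℕ → (Γ → Ω) → Prop, ∀ u f,
      A u f ↔ ∃ i ∈ J, (i : ℕ) / Fintype.card (Γ → Ω) = u ∧ pt Γ Ω i = f := ⟨_, fun _ _ => Iff.rfl⟩
  have h3 : (J.card : ℝ) ≤ Fintype.card (Γ → Ω) * ∑ u ∈ range I.1.v, dens (A u) := by
    refine le_trans ?_ (sum_fin_mul (Γ := Γ) (Ω := Ω) I.1.v fun u f => ind (A u f)).le
    rw [card_eq_sum_ones, Nat.cast_sum]
    refine (sum_le_sum fun i hi => ?_).trans
      (sum_le_sum_of_subset_of_nonneg (subset_univ J) fun _ _ _ => ind_nonneg _)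
    rw [ind_pos ((hA _ _).2 ⟨i, hi, rfl, rfl⟩), Nat.cast_one]
  have h4 : ∀ e ∈ I.2.2, ∀ e' ∈ I.2.2, e.2.1 = e'.2.1 → δ / 2 ≤ dens (A e.1) →
      δ / 2 ≤ dens (A e'.1) → ∃ b ∈ T (A e.1), e'.2.2⁻¹ * (e.2.2 * b) ∈ T (A e'.1) := by
    intro e he e' he' a1 a2 a3
    refine hT' ((Equiv.mulLeft e.2.2).trans (Equiv.mulLeft e'.2.2⁻¹)) _ _ a2 a3 fun y y' b1 b2 => ?_
    obtain ⟨i, hi, c1, rfl⟩ := (hA _ _).1 b1
    obtain ⟨j, hj, c2, rfl⟩ := (hA _ _).1 b2
    by_contra hc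
    exact h2 i hi j hj ((conf_iff P₁).2 ⟨e, he, e', he', c1.symm, c2.symm, a1,
      fun b hb => hc ⟨b, hb⟩⟩)
  have h5 : ∀ v : ℕ, ∃ L : Finset Γ, L.card ≤ t ∧ ∀ e ∈ I.2.2, e.2.1 = v → δ / 2 ≤ dens (A e.1) →
      ∃ b ∈ T (A e.1), e.2.2 * b ∈ L := by
    intro v
    by_cases hv : ∃ e' ∈ I.2.2, e'.2.1 = v ∧ δ / 2 ≤ dens (A e'.1)
    · obtain ⟨e', he', a1, a2⟩ := hv
      refine ⟨(T (A e'.1)).image fun b => e'.2.2 * b, card_image_le.trans (hT _),
        fun e he a3 a4 => ?_⟩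
      obtain ⟨b, b1, b2⟩ := h4 e he e' he' (a3.trans a1.symm) a4 a2
      exact ⟨b, b1, mem_image.2 ⟨_, b2, mul_inv_cancel_left _ _⟩⟩
    · exact ⟨∅, Nat.zero_le _, fun e he a3 a4 => absurd ⟨e, he, a3, a4⟩ hv⟩
  choose L hL hL' using h5
  have hb : ∀ S : Finset Γ, S.card ≤ t → ∑ b, (if b ∈ S then (1 : ℝ) else 0) ≤ t := by
    intro S hS
    rw [sum_boole]
    simpa using hS
  have p0 : ∀ (p : Prop) [Decidable p], (0 : ℝ) ≤ if p then 1 else 0 := fun p _ => by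
    split_ifs <;> norm_num
  have h6 : ∀ F : ℕ → Γ, ∑ p : Fin I.2.2.length, ∑ c, (if c ∈ L I.2.2[p].2.1 then (1 : ℝ) else 0) *
      (if c = I.2.2[p].2.2 * F I.2.2[p].1 then (1 : ℝ) else 0) ≤ t * (s * I.2.2.length) := by
    intro F
    have h7 : ∀ F' : ℕ → Γ, ∑ p : Fin I.2.2.length,
        (if F' I.2.2[p].2.1 = I.2.2[p].2.2 * F I.2.2[p].1 then (1 : ℝ) else 0) ≤
          s * I.2.2.length := by
      intro F'
      have h8 := hI (F, F')
      rw [cnt_eq_fin] at h8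
      exact le_trans (le_of_eq (sum_congr rfl fun p _ => 
        if_congr (satG_iff (c := I.2.2[p]) (F := (F, F'))).symm rfl rfl)) h8
    have h8 := frac_le (fun p : Fin I.2.2.length => I.2.2[p].2.1)
      (fun p c => if c = I.2.2[p].2.2 * F I.2.2[p].1 then (1 : ℝ) else 0) (fun _ _ => p0 _) h7
      (fun v c => if c ∈ L v then (1 : ℝ) else 0) (Nat.cast_nonneg t) (fun _ _ => p0 _)
      fun v => hb _ (hL v)
    exact h8
  have h7 := frac_le (fun p : Fin I.2.2.length => I.2.2[p].1)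
    (fun p a => ∑ c, (if c ∈ L I.2.2[p].2.1 then (1 : ℝ) else 0) *
      (if c = I.2.2[p].2.2 * a then (1 : ℝ) else 0))
    (fun _ _ => sum_nonneg fun _ _ => mul_nonneg (p0 _) (p0 _)) h6
    (fun u a => if a ∈ T (A u) then (1 : ℝ) else 0) (Nat.cast_nonneg t) (fun _ _ => p0 _)
    fun u => hb _ (hT _)
  have h8 : (I.2.2.map fun e => if δ / 2 ≤ dens (A e.1) then (1 : ℝ) else 0).sum ≤
      t * (t * (s * I.2.2.length)) := by
    rw [sum_map_eq_sum_fin]
    refine le_trans (sum_le_sum fun p _ => ?_) h7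
    have q0 : ∀ a, 0 ≤ (if a ∈ T (A I.2.2[p].1) then (1 : ℝ) else 0) *
        ∑ c, (if c ∈ L I.2.2[p].2.1 then (1 : ℝ) else 0) *
          (if c = I.2.2[p].2.2 * a then (1 : ℝ) else 0) := fun a =>
      mul_nonneg (p0 _) (sum_nonneg fun _ _ => mul_nonneg (p0 _) (p0 _))
    split_ifs with hp
    · obtain ⟨b, b1, b2⟩ := hL' _ I.2.2[p] (List.getElem_mem p.2) rfl hp
      refine le_trans ?_ (single_le_sum (fun a _ => q0 a) (mem_univ b))
      simp only [mul_ite, mul_one, mul_zero, sum_ite_eq', mem_univ, if_true]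
      rw [if_pos b2, if_pos b1]
    · exact sum_nonneg fun a _ => q0 a
  have h9 : ∀ φ : ℕ → ℝ, (I.2.2.map fun e => φ e.1).sum = d * ∑ u ∈ range I.1.v, φ u := by
    intro φ
    rw [← sum_star _ (fun e he => (h.lt e he).1), mul_sum]
    refine sum_congr rfl fun u hu => ?_
    rw [List.map_congr_left (g := fun _ => φ u) fun e he => by
      rw [of_decide_eq_true (List.mem_filter.1 he).2], sum_map_const,
      length_star h (mem_range.1 hu), mul_comm]
  have h10 := h9 fun _ => 1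
  rw [sum_map_const, one_mul, sum_const, card_range, nsmul_eq_mul, mul_one] at h10
  rw [h9 fun u => if δ / 2 ≤ dens (A u) then (1 : ℝ) else 0, h10] at h8
  have hd : (0 : ℝ) < d := by exact_mod_cast h.pos
  have h11 : ∑ u ∈ range I.1.v, (if δ / 2 ≤ dens (A u) then (1 : ℝ) else 0) ≤ δ / 2 * I.1.v := by
    refine le_of_mul_le_mul_left (h8.trans ?_) hd
    nlinarith [mul_le_mul_of_nonneg_left hs (show (0 : ℝ) ≤ d * I.1.v by positivity)]
  have h12 : ∑ u ∈ range I.1.v, dens (A u) ≤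
      ∑ u ∈ range I.1.v, ((if δ / 2 ≤ dens (A u) then (1 : ℝ) else 0) + δ / 2) :=
    sum_le_sum fun u _ => by
      split_ifs with hu
      · linarith [dens_le_one (A u)]
      · linarith
  rw [sum_add_distrib, sum_const, card_range, nsmul_eq_mul] at h12
  nlinarith [mul_le_mul_of_nonneg_left (h12.trans (add_le_add h11 le_rfl)) hQ0.le]

/-- The data which is written down. -/
noncomputable def gdata (I : Inst Γ) : Un × Raw :=
  (⟨I.1.v * Fintype.card (Γ → Ω)⟩, ⟨((List.range (I.1.v * Fintype.card (Γ → Ω))).map fun u =>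
    (List.range (I.1.v * Fintype.card (Γ → Ω))).map fun v => adjB P₁ I.2.2 u v).flatten⟩)

theorem ofFn_eq_map_range {α : Type} (n : ℕ) (f : ℕ → α) :
    (List.ofFn fun i : Fin n => f i) = (List.range n).map f :=
  List.ext_getElem (by simp) fun i h1 h2 => by simp

theorem code_krG (I : Inst Γ) : graphCode (krG P₁ I) = enc (gdata P₁ I) := by
  rw [gdata, enc_pair, enc_un, enc_raw, graphCode, pair_eq_pr]
  congr 2
  rw [← ofFn_eq_map_range]
  congr 1
  funext u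
  rw [← ofFn_eq_map_range]
  congr 1
  funext v
  rw [Bool.eq_iff_iff]
  simp only [decide_eq_true_eq]
  rfl

theorem PT_conf [Enc Γ] [EncInj Γ] [Enc Ω] [EncInj Ω] {α : Type} [Enc α]
    {l : α → List (ℕ × ℕ × Γ)} {i j : α → ℕ} (hl : PT ∅ l) (hi : PT ∅ i) (hj : PT ∅ j) :
    PT ∅ fun a => conf P₁ (l a) (i a) (j a) := by
  have hp : PT ∅ (pt Γ Ω) := PT.finComp (Fintype.equivFin (Γ → Ω)).symm
    (PT.finMk (PT.mod PT.id (PT.const _)) fun _ => Nat.mod_lt _ Fintype.card_pos)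
  have hi' : PT ∅ fun q : (α × ℕ × ℕ × Γ) × ℕ × ℕ × Γ => i q.1.1 := hi.comp PT.fst'.fst
  have hj' : PT ∅ fun q : (α × ℕ × ℕ × Γ) × ℕ × ℕ × Γ => j q.1.1 := hj.comp PT.fst'.fst
  refine PT.any hl (PT.any (hl.comp PT.fst')
    ((((PT.eqNat PT.fst'.snd.fst (hi'.div (PT.const _))).and
      (PT.eqNat PT.snd'.fst (hj'.div (PT.const _)))).and
      (PT.eqNat PT.fst'.snd.snd.fst PT.snd'.snd.fst)).and ?_))
  exact PT.finComp2 (fun (p : (Γ → Ω) × (Γ → Ω)) (q : Γ × Γ) => clash P₁ p.1 p.2 q.1 q.2)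
    ((hp.comp hi').pair (hp.comp hj')) (PT.fst'.snd.snd.snd.pair PT.snd'.snd.snd)

theorem PT_gdata [Enc Γ] [EncInj Γ] [Enc Ω] [EncInj Ω] : PT ∅ (gdata (Γ := Γ) P₁) := by
  have hn : PT ∅ fun I : Inst Γ => I.1.v * Fintype.card (Γ → Ω) := PT.fst'.unVal.mul (PT.const _)
  have hb : PBd fun I : Inst Γ => I.1.v * Fintype.card (Γ → Ω) :=
    (PBd.unVal (A := ∅) PT.fst').mul (PBd.const _)
  have hr := PT.range hn hb
  have h0 : PT ∅ fun p : (Inst Γ × ℕ) × ℕ => p.1.1.2.2 := PT.fst'.fst.snd.snd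
  have h1 : PT ∅ fun p : (Inst Γ × ℕ) × ℕ => p.1.2 := PT.fst'.snd
  have h2 : PT ∅ fun p : (Inst Γ × ℕ) × ℕ => p.2 := PT.snd'
  have ha : PT ∅ fun p : (Inst Γ × ℕ) × ℕ => adjB P₁ p.1.1.2.2 p.1.2 p.2 :=
    (PT.eqNat h1 h2).not.and ((((PT_conf P₁ h0 h1 h2).or (PT_conf P₁ h0 h2 h1)).or
      (PT_conf P₁ h0 h1 h1)).or (PT_conf P₁ h0 h2 h2))
  exact PT.pair (PT.mkUn hn hb) (PT.rawOfList (PT.flatten
    (PT.map hr (PT.map (hr.comp PT.fst') ha))))

end Graph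

/-- Independent sets of density almost one half against independent sets of small density. -/
theorem indep_hard {ε δ : ℝ} (hε : 0 < ε) (hδ : 0 < δ) :
    NPHard graphCode (fun G => 0 < G.1 ∧ (1 / 2 - ε) * G.1 ≤ G.2.indepNum)
      (fun G => 0 < G.1 ∧ (G.2.indepNum : ℝ) ≤ δ * G.1) := by
  classical
  obtain ⟨r, hr⟩ := pow_unbounded_of_one_lt (max (2 / ε) (1 / δ)) (one_lt_two (α := ℝ))
  have hr1 : (2 : ℝ) ^ r ≤ 2 ^ (r + 1) := pow_le_pow_right₀ one_le_two (Nat.le_succ r)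
  obtain ⟨t, ht⟩ := long_lists r (half_pos hδ)
  obtain ⟨d, k₀, -, h⟩ := hard_strP hε (δ := δ / (2 * (t * t + 1))) (by positivity)
  let _ : Enc (Multiplicative (Fin (k₀ + 1))) := ⟨fun g => enc g.toAdd⟩
  have : EncInj (Multiplicative (Fin (k₀ + 1))) :=
    ⟨fun _ _ h => Multiplicative.toAdd.injective (EncInj.inj (α := Fin (k₀ + 1)) h)⟩
  obtain ⟨T, hT, hT'⟩ := ht (Multiplicative (Fin (k₀ + 1)))
  have hpos : ∀ (I : Inst (Multiplicative (Fin (k₀ + 1)))) (d D : ℕ), WF I d D →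
      0 < (krG (One (r := r)) I).1 := fun I d D h => by
    obtain ⟨e, he⟩ := List.exists_mem_of_ne_nil _ h.ne
    exact Nat.mul_pos (Nat.zero_lt_of_lt (h.lt e he).1) Fintype.card_pos
  refine npHard_of_hard (h (Multiplicative (Fin (k₀ + 1))) (by simp)) (fun _ => True)
    (fun I _ => krG (One (r := r)) I) (gdata One) (PT_gdata _) (fun I _ => code_krG _ I)
    (fun _ _ => trivial) (fun _ _ => trivial) (fun I _ ⟨⟨_, hw⟩, F, hF⟩ => ⟨hpos I _ _ hw, ?_⟩)
    fun I _ ⟨⟨_, hw⟩, hF⟩ => ⟨hpos I _ _ hw, kr_sound _ hw hδ hF ?_ hT hT' ?_⟩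
  · refine le_trans (mul_le_mul_of_nonneg_right ?_ (Nat.cast_nonneg _)) (kr_complete One I hF)
    rw [expect_one]
    have h1 : 1 / (2 : ℝ) ^ (r + 1) ≤ ε / 2 := by
      have h2 := ((le_max_left _ _).trans hr.le).trans hr1
      rw [div_le_iff₀ hε] at h2
      rw [div_le_iff₀ (by positivity)]
      linarith
    have h2 : 0 < 1 / (2 : ℝ) ^ (r + 1) := by positivity
    nlinarith
  · have h1 := ((le_max_right _ _).trans hr.le).trans hr1
    rw [div_le_iff₀ hδ] at h1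
    have h2 : Fintype.card (Vec (r + 1)) ≤
        Fintype.card (Multiplicative (Fin (k₀ + 1)) → Vec (r + 1)) :=
      Fintype.card_le_of_injective (fun ω _ => ω) fun _ _ h => congrFun h 1
    have h3 : (2 : ℝ) ^ (r + 1) ≤ Fintype.card (Multiplicative (Fin (k₀ + 1)) → Vec (r + 1)) := by
      refine le_trans (le_of_eq ?_) (Nat.cast_le.2 h2)
      simp [Vec]
    nlinarith
  · have h1 : (t : ℝ) * (t * (δ / (2 * (t * t + 1)))) = δ / 2 * (t * t / (t * t + 1)) := by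
      field_simp
    rw [h1]
    exact mul_le_of_le_one_right (by positivity) (by
      rw [div_le_one (by positivity)]
      linarith)

theorem cover_add_indep {n : ℕ} (G : SimpleGraph (Fin n)) :
    G.vertexCoverNum.toNat + G.indepNum = n := by
  classical
  obtain ⟨s, hs, hc⟩ := G.vertexCoverNum_exists
  obtain ⟨J, hJ, hJc⟩ := G.exists_isNIndepSet_indepNum
  have h1 : G.vertexCoverNum.toNat ≤ Jᶜ.card := by
    have h2 : G.IsVertexCover ((Jᶜ : Finset (Fin n)) : Set (Fin n)) := by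
      rw [coe_compl]
      exact SimpleGraph.isVertexCover_compl.2 hJ
    have h3 := h2.vertexCoverNum_le
    rw [Set.encard_coe_eq_coe_finsetCard] at h3
    exact ENat.toNat_le_of_le_natCast h3
  have h2 : s.toFinsetᶜ.card ≤ G.indepNum := by
    refine SimpleGraph.IsIndepSet.card_le_indepNum ?_
    rw [coe_compl, Set.coe_toFinset]
    exact SimpleGraph.isIndepSet_compl_iff_isVertexCover.2 hc
  have h3 : G.vertexCoverNum.toNat = s.toFinset.card := by
    rw [← hs, Set.encard_eq_coe_toFinset_card, ENat.toNat_natCast]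
  have h4 := card_add_card_compl J
  have h5 := card_add_card_compl s.toFinset
  rw [Fintype.card_fin] at h4 h5
  omega

end Vale.Agent.N325
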